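import Vale.Agent.P064.Sym.Good
import Vale.Agent.P034.Series

/-!
Profiles, and the possible piece sets for a fixed union.
-/

namespace Vale.Agent.P064.Sym

open Finset
open Vale.Agent.P034 (LevelSys phi)
open scoped Classical

variable {X : Type}

/-- The profile of a coordinate set: its number of elements in each round. -/
noncomputable def prof (T : ℕ) (A : Finset (X × ℤ)) : ↥(rounds T) → ℕ :=
  fun i => (A.filter (fun c => c.2 = (i : ℤ))).card

lemma sum_eq_prof {T : ℕ} {A : Finset (X × ℤ)} (hA : ∀ c ∈ A, c.2 ∈ rounds T) (f : ℤ → ℝ) :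
    ∑ c ∈ A, f c.2 = ∑ i : ↥(rounds T), (prof T A i : ℝ) * f i := by
  unfold prof
  rw [Finset.sum_coe_sort (rounds T) (fun i => ((A.filter (fun c => c.2 = i)).card : ℝ) * f i),
    ← Finset.sum_fiberwise_of_maps_to (t := rounds T) (g := fun c : X × ℤ => c.2) hA]
  refine Finset.sum_congr rfl fun i _ => ?_
  rw [Finset.sum_congr rfl (fun c hc => by rw [(Finset.mem_filter.mp hc).2])
    (g := fun _ => f i), Finset.sum_const, nsmul_eq_mul]

lemma card_eq_prof {T : ℕ} {A : Finset (X × ℤ)} (hA : ∀ c ∈ A, c.2 ∈ rounds T) :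
    (A.card : ℝ) = ∑ i : ↥(rounds T), (prof T A i : ℝ) := by
  have := sum_eq_prof hA (fun _ => 1)
  simpa using this

lemma prod_eq_prof {T : ℕ} {A : Finset (X × ℤ)} (hA : ∀ c ∈ A, c.2 ∈ rounds T) (f : ℤ → ℝ) :
    ∏ c ∈ A, f c.2 = ∏ i : ↥(rounds T), f i ^ prof T A i := by
  unfold prof
  rw [Finset.prod_coe_sort (rounds T) (fun i => f i ^ (A.filter (fun c => c.2 = i)).card),
    ← Finset.prod_fiberwise_of_maps_to (t := rounds T) (g := fun c : X × ℤ => c.2) hA]
  refine Finset.prod_congr rfl fun i _ => ?_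
  rw [Finset.prod_congr rfl (fun c hc => by rw [(Finset.mem_filter.mp hc).2])
    (g := fun _ => f i), Finset.prod_const]

variable [Fintype X]

/-- The nonzero profiles. -/
noncomputable def profiles (X : Type) [Fintype X] (T : ℕ) : Finset (↥(rounds T) → ℕ) :=
  (Fintype.piFinset fun _ : ↥(rounds T) => Finset.range (Fintype.card X + 1)).erase 0

lemma prof_mem_profiles {T : ℕ} {A : Finset (X × ℤ)} (hA : ∀ c ∈ A, c.2 ∈ rounds T)
    (hne : A.Nonempty) : prof T A ∈ profiles X T := by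
  refine Finset.mem_erase.mpr ⟨?_, ?_⟩
  · intro h0
    have h1 := card_eq_prof hA
    rw [h0] at h1
    simp at h1
    exact hne.ne_empty h1
  · rw [Fintype.mem_piFinset]
    intro i
    rw [Finset.mem_range]
    refine Nat.lt_succ_of_le ?_
    unfold prof
    refine le_trans (le_of_eq (Finset.card_image_of_injOn (f := Prod.fst) ?_).symm)
      (Finset.card_le_univ _)
    intro a ha b hb hab
    rw [Finset.mem_coe, Finset.mem_filter] at ha hb
    exact Prod.ext hab (ha.2.trans hb.2.symm)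

lemma card_prof_le {T : ℕ} (t : ↥(rounds T) → ℕ) (L : ℤ → Finset X)
    (S : Finset (Finset (X × ℤ)))
    (hS : ∀ A ∈ S, A ⊆ spc X T ∧ prof T A = t ∧ ∀ c ∈ A, c.1 ∈ L c.2) :
    S.card ≤ ∏ i : ↥(rounds T), (L i).card.choose (t i) := by
  have e : ∏ i : ↥(rounds T), (L i).card.choose (t i) =
      (Fintype.piFinset fun i : ↥(rounds T) => (L i).powersetCard (t i)).card := by
    rw [Fintype.card_piFinset]
    simp only [Finset.card_powersetCard]
  rw [e]
  refine Finset.card_le_card_of_injOn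
    (fun A (i : ↥(rounds T)) => (A.filter (fun c => c.2 = (i : ℤ))).image Prod.fst) ?_ ?_
  · intro A hA
    rw [Finset.mem_coe] at hA
    rw [Finset.mem_coe, Fintype.mem_piFinset]
    intro i
    rw [Finset.mem_powersetCard]
    refine ⟨?_, ?_⟩
    · intro e he
      obtain ⟨c, hc, rfl⟩ := Finset.mem_image.mp he
      obtain ⟨hcA, hci⟩ := Finset.mem_filter.mp hc
      have := (hS A hA).2.2 c hcA
      rwa [hci] at this
    · rw [Finset.card_image_of_injOn]
      · exact congrFun (hS A hA).2.1 i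
      · intro a ha b hb hab
        rw [Finset.mem_coe, Finset.mem_filter] at ha hb
        exact Prod.ext hab (ha.2.trans hb.2.symm)
  · intro A hA B hB hAB
    rw [Finset.mem_coe] at hA hB
    have key : ∀ A B : Finset (X × ℤ), A ⊆ spc X T →
        (fun i : ↥(rounds T) => (A.filter (fun c => c.2 = (i : ℤ))).image Prod.fst) =
        (fun i : ↥(rounds T) => (B.filter (fun c => c.2 = (i : ℤ))).image Prod.fst) →
        A ⊆ B := by
      intro A B hA hAB c hc
      have h := congrFun hAB ⟨c.2, mem_spc.mp (hA hc)⟩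
      simp only at h
      have hc1 : c.1 ∈ (A.filter (fun d => d.2 = c.2)).image Prod.fst :=
        Finset.mem_image_of_mem _ (Finset.mem_filter.mpr ⟨hc, rfl⟩)
      rw [h] at hc1
      obtain ⟨d, hd, hd1⟩ := Finset.mem_image.mp hc1
      obtain ⟨hd2, hd3⟩ := Finset.mem_filter.mp hd
      rwa [Prod.ext hd1 hd3] at hd2
    exact Finset.Subset.antisymm (key A B (hS A hA).1 hAB) (key B A (hS B hB).1 hAB.symm)

variable (D : LevelSys X)

/-- The piece sets that are possible for the union `Z`. -/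
noncomputable def valid (m : ℤ) (Z : Finset (X × ℤ)) : Finset (Finset (X × ℤ)) :=
  (spc X D.top).powerset.filter
    (fun A => ∃ W H, Frag D m W H ∧ A = pieces D m W H ∧ W ∪ A = Z)

variable {D}

lemma fiber_bound {m : ℤ} {Z : Finset (X × ℤ)} (t : ↥(rounds D.top) → ℕ)
    (nb : ℤ → ℕ) (hnb : ∀ H ∈ D.Hs, ∀ i, (low D m H i).card ≤ nb i) :
    (∑ A ∈ (valid D m Z).filter (fun A => prof D.top A = t), ∏ c ∈ A, xv c.2 ≤
        ∏ i : ↥(rounds D.top), ((nb i).choose (t i) : ℝ) * xv i ^ t i) ∧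
      (((valid D m Z).filter (fun A => prof D.top A = t)).Nonempty →
        ∃ H₀ ∈ D.Hs, D.cC m H₀ < (∑ i : ↥(rounds D.top), (t i : ℝ)) / ep ^ 2) := by
  rcases ((valid D m Z).filter (fun A => prof D.top A = t)).eq_empty_or_nonempty with
    he | ⟨A₀, hA₀⟩
  · refine ⟨?_, fun h => absurd he h.ne_empty⟩
    rw [he, Finset.sum_empty]
    exact Finset.prod_nonneg fun i _ => mul_nonneg (Nat.cast_nonneg _) (pow_nonneg (xv_nonneg _) _)
  obtain ⟨hv₀, ht₀⟩ := Finset.mem_filter.mp hA₀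
  obtain ⟨hs₀, W₀, H₀, hF₀, hA₀eq, hZ₀⟩ := Finset.mem_filter.mp hv₀
  rw [Finset.mem_powerset] at hs₀
  have hlt₀ : ∀ c ∈ A₀, c.2 ∈ rounds D.top := fun c hc => mem_spc.mp (hs₀ hc)
  have hC₀ : Cand D m Z (wU A₀) H₀ := by
    have := cand_self hF₀
    rwa [← hA₀eq, hZ₀] at this
  have hall : ∀ A ∈ (valid D m Z).filter (fun A => prof D.top A = t),
      A ⊆ spc X D.top ∧ Set.InjOn Prod.fst (A : Set (X × ℤ)) ∧ ep * D.cC m H₀ < wU A ∧
        ∀ c ∈ A, c.1 ∈ D.supp H₀ ∧ (D.lev H₀ c.1 : ℤ) = m + c.2 := by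
    intro A hA
    obtain ⟨hv, ht⟩ := Finset.mem_filter.mp hA
    obtain ⟨hs, W, H, hF, hAeq, hZ⟩ := Finset.mem_filter.mp hv
    rw [Finset.mem_powerset] at hs
    have h1 : wU A = wU A₀ := by
      unfold wU
      rw [sum_eq_prof (fun c hc => mem_spc.mp (hs hc)) om,
        sum_eq_prof hlt₀ om, ht, ht₀]
    have hC : Cand D m (W ∪ pieces D m W H) (wU (pieces D m W H)) H₀ := by
      rw [← hAeq, hZ, h1]; exact hC₀
    have := ident hF hC
    rw [← hAeq] at this
    exact ⟨hs, hAeq ▸ pieces_fst_injOn m W H, this⟩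
  refine ⟨?_, fun _ => ⟨H₀, hF₀.1, ?_⟩⟩
  · have hval : ∀ A ∈ (valid D m Z).filter (fun A => prof D.top A = t),
        ∏ c ∈ A, xv c.2 = ∏ i : ↥(rounds D.top), xv i ^ t i := by
      intro A hA
      rw [prod_eq_prof (fun c hc => mem_spc.mp ((hall A hA).1 hc)) xv, (Finset.mem_filter.mp hA).2]
    rw [Finset.sum_congr rfl hval, Finset.sum_const, nsmul_eq_mul, Finset.prod_mul_distrib]
    refine mul_le_mul_of_nonneg_right ?_
      (Finset.prod_nonneg fun i _ => pow_nonneg (xv_nonneg _) _)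
    rw [← Nat.cast_prod]
    refine Nat.cast_le.mpr ((card_prof_le t (fun i => low D m H₀ i) _ fun A hA =>
      ⟨(hall A hA).1, (Finset.mem_filter.mp hA).2, fun c hc => Finset.mem_filter.mpr
        ⟨((hall A hA).2.2.2 c hc).1, (((hall A hA).2.2.2 c hc).2).le⟩⟩).trans ?_)
    exact Finset.prod_le_prod' fun i _ => Nat.choose_le_choose _ (hnb H₀ hF₀.1 i)
  · obtain ⟨-, hinj, hbig, hsl⟩ := hall A₀ hA₀
    have := cC_lt_of_slices hinj hbig hsl
    rwa [card_eq_prof hlt₀, ht₀] at this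

end Vale.Agent.P064.Sym
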