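import Vale.Agent.P034.Setup

/-!
Level systems with signed depths: residual sets, level domination and fragments.
-/

namespace Vale.Agent.P064.Sym

open Finset
open Vale.Agent.P034 (LevelSys phi)
open scoped Classical

/-- The tolerance. -/
noncomputable def ep : ℝ := 1 / 2 ^ 11

/-- The density factor of the rounds. -/
noncomputable def big : ℝ := 2 ^ 100

lemma ep_pos : 0 < ep := by unfold ep; norm_num

lemma big_pos : 0 < big := by unfold big; norm_num

/-- The weight of a signed depth. -/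
noncomputable def om (d : ℤ) : ℝ := (3 / 4 : ℝ) ^ d

lemma om_pos (d : ℤ) : 0 < om d := zpow_pos (by norm_num) d

lemma om_anti {a b : ℤ} (h : a ≤ b) : om b ≤ om a :=
  zpow_le_zpow_right_of_le_one₀ (by norm_num) (by norm_num) h

lemma om_succ (d : ℤ) : om (d + 1) = 3 / 4 * om d := by
  unfold om
  rw [zpow_add₀ (by norm_num), zpow_one]
  ring

lemma om_inj {a b : ℤ} (h : om a = om b) : a = b :=
  zpow_right_injective₀ (by norm_num : (0 : ℝ) < 3 / 4) (by norm_num) h

/-- The rounds that can occur for levels up to `T`. -/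
noncomputable def rounds (T : ℕ) : Finset ℤ := Finset.Icc (-(T : ℤ)) (2 * (T : ℤ))

variable {X : Type}

/-- The element `e` is not hit in the rounds up to `a`. -/
def Unhit (Z : Finset (X × ℤ)) (e : X) (a : ℤ) : Prop := ∀ i, i ≤ a → (e, i) ∉ Z

/-- The weight of the pieces. -/
noncomputable def wU (A : Finset (X × ℤ)) : ℝ := ∑ c ∈ A, om c.2

variable (D : LevelSys X)

/-- The signed depth at stage `m`. -/
def dp (m : ℤ) (H : Finset X) (e : X) : ℤ := (D.lev H e : ℤ) - m

/-- The residual elements at stage `m`. -/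
noncomputable def res (m : ℤ) (Z : Finset (X × ℤ)) (H : Finset X) : Finset X :=
  (D.supp H).filter (fun e => Unhit Z e (dp D m H e))

/-- The residual weight at stage `m`. -/
noncomputable def wR (m : ℤ) (Z : Finset (X × ℤ)) (H : Finset X) : ℝ :=
  ∑ e ∈ res D m Z H, om (dp D m H e)

/-- The slowly growing coefficient. -/
noncomputable def bb (d : ℤ) : ℝ := 9 - 8 * (2 : ℝ) ^ (-d)

/-- The history condition at stage `m`. -/
def Hist (m : ℤ) (W : Finset (X × ℤ)) (H : Finset X) : Prop :=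
  ∀ m' ∈ Finset.Ioc m (D.top : ℤ),
    wR D m' W H + 4 * wR D m W H ≤ bb (m' - m) * ep * D.cC m' H

/-- The residual elements of `H'` lie in the support of `H`, at levels no larger than in `H'`. -/
def Rel (m : ℤ) (W : Finset (X × ℤ)) (H' H : Finset X) : Prop :=
  ∀ e ∈ res D m W H', e ∈ D.supp H ∧ D.lev H e ≤ D.lev H' e

/-- The set `H` gives a fragment at stage `m`. -/
def Frag (m : ℤ) (W : Finset (X × ℤ)) (H : Finset X) : Prop :=
  H ∈ D.Hs ∧ Hist D m W H ∧
    ∀ H' ∈ D.Hs, Rel D m W H' H → Hist D m W H' →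
      wR D m W H ≤ wR D m W H' ∧ ep * D.cC m H' < wR D m W H'

/-- The coordinates of a residual set, each at its own depth. -/
noncomputable def pieces (m : ℤ) (W : Finset (X × ℤ)) (H : Finset X) : Finset (X × ℤ) :=
  (res D m W H).image (fun e => (e, dp D m H e))

/-- The piece sets of the fragments at stage `m`. -/
noncomputable def pieceSets (m : ℤ) (W : Finset (X × ℤ)) : Finset (Finset (X × ℤ)) :=
  (D.Hs.filter (fun H => Frag D m W H)).image (fun H => pieces D m W H)

/-- The elements of level at most `m + i`. -/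
noncomputable def low (m : ℤ) (H : Finset X) (i : ℤ) : Finset X :=
  (D.supp H).filter (fun e => (D.lev H e : ℤ) ≤ m + i)

/-- A candidate for the identification. -/
def Cand (m : ℤ) (Z : Finset (X × ℤ)) (u : ℝ) (H : Finset X) : Prop :=
  H ∈ D.Hs ∧ res D m Z H = ∅ ∧ ∀ m' ∈ Finset.Ioc m (D.top : ℤ),
    wR D m' Z H + 4 * u ≤ bb (m' - m) * ep * D.cC m' H

variable {D}

lemma mem_res {m : ℤ} {Z : Finset (X × ℤ)} {H : Finset X} {e : X} :
    e ∈ res D m Z H ↔ e ∈ D.supp H ∧ Unhit Z e (dp D m H e) := Finset.mem_filter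

lemma res_mono {m m' : ℤ} (h : m ≤ m') (Z : Finset (X × ℤ)) (H : Finset X) :
    res D m Z H ⊆ res D m' Z H := by
  intro e he
  rw [mem_res] at he ⊢
  exact ⟨he.1, fun i hi => he.2 i (by unfold dp at hi ⊢; omega)⟩

lemma res_subset_of_subset {W Z : Finset (X × ℤ)} (hWZ : W ⊆ Z) (m : ℤ) (H : Finset X) :
    res D m Z H ⊆ res D m W H := by
  intro e he
  rw [mem_res] at he ⊢
  exact ⟨he.1, fun i hi hW => he.2 i hi (hWZ hW)⟩

lemma wR_nonneg (m : ℤ) (Z : Finset (X × ℤ)) (H : Finset X) : 0 ≤ wR D m Z H :=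
  Finset.sum_nonneg (fun _ _ => (om_pos _).le)

lemma wR_mono {m m' : ℤ} (h : m ≤ m') (Z : Finset (X × ℤ)) (H : Finset X) :
    wR D m Z H ≤ wR D m' Z H := by
  unfold wR
  refine le_trans (Finset.sum_le_sum fun e _ => ?_)
    (Finset.sum_le_sum_of_subset_of_nonneg (res_mono h Z H) fun i _ _ => (om_pos _).le)
  exact om_anti (by unfold dp; omega)

lemma wR_mono_set {W Z : Finset (X × ℤ)} (hWZ : W ⊆ Z) (m : ℤ) (H : Finset X) :
    wR D m Z H ≤ wR D m W H :=
  Finset.sum_le_sum_of_subset_of_nonneg (res_subset_of_subset hWZ m H) fun _ _ _ => (om_pos _).le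

lemma bb_zero : bb 0 = 1 := by unfold bb; norm_num

lemma bb_le (d : ℤ) : bb d ≤ 9 := by
  unfold bb
  have : (0 : ℝ) < (2 : ℝ) ^ (-d) := by positivity
  linarith

lemma bb_step (d : ℤ) : bb (d - 1) + 8 * (2 : ℝ) ^ (-d) = bb d := by
  unfold bb
  rw [show -(d - 1) = -d + 1 by ring, zpow_add₀ (by norm_num), zpow_one]
  ring

lemma Rel.refl (m : ℤ) (W : Finset (X × ℤ)) (H : Finset X) : Rel D m W H H :=
  fun _ he => ⟨(mem_res.mp he).1, le_rfl⟩

lemma Rel.mono {m m' : ℤ} (h : m ≤ m') {W : Finset (X × ℤ)} {H' H : Finset X}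
    (hR : Rel D m' W H' H) : Rel D m W H' H :=
  fun e he => hR e (res_mono h W H' he)

lemma Rel.trans {m : ℤ} {W : Finset (X × ℤ)} {H'' H' H : Finset X}
    (h₁ : Rel D m W H'' H') (h₂ : Rel D m W H' H) : Rel D m W H'' H := by
  intro e he
  obtain ⟨hs, hl⟩ := h₁ e he
  have hres : e ∈ res D m W H' :=
    mem_res.mpr ⟨hs, fun i hi => (mem_res.mp he).2 i (by unfold dp at hi ⊢; omega)⟩
  obtain ⟨hs', hl'⟩ := h₂ e hres
  exact ⟨hs', hl'.trans hl⟩

lemma pieces_injOn (m : ℤ) (H : Finset X) (s : Set X) :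
    Set.InjOn (fun e => ((e, dp D m H e) : X × ℤ)) s :=
  fun _ _ _ _ h => congrArg Prod.fst h

lemma mem_pieces {m : ℤ} {W : Finset (X × ℤ)} {H : Finset X} {c : X × ℤ} :
    c ∈ pieces D m W H ↔ c.1 ∈ res D m W H ∧ c.2 = dp D m H c.1 := by
  constructor
  · intro hc
    obtain ⟨e, he, rfl⟩ := Finset.mem_image.mp hc
    exact ⟨he, rfl⟩
  · rintro ⟨h1, h2⟩
    exact Finset.mem_image.mpr ⟨c.1, h1, by rw [← h2]⟩

lemma pieces_fst_injOn (m : ℤ) (W : Finset (X × ℤ)) (H : Finset X) :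
    Set.InjOn Prod.fst (pieces D m W H : Set (X × ℤ)) := by
  intro a ha b hb hab
  rw [Finset.mem_coe] at ha hb
  exact Prod.ext hab (by rw [(mem_pieces.mp ha).2, (mem_pieces.mp hb).2, hab])

lemma disjoint_pieces (m : ℤ) (W : Finset (X × ℤ)) (H : Finset X) :
    Disjoint W (pieces D m W H) := by
  rw [Finset.disjoint_left]
  intro c hcW hc
  obtain ⟨h1, h2⟩ := mem_pieces.mp hc
  exact (mem_res.mp h1).2 c.2 h2.le hcW

lemma wU_pieces (m : ℤ) (W : Finset (X × ℤ)) (H : Finset X) :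
    wU (pieces D m W H) = wR D m W H := by
  unfold wU pieces
  rw [Finset.sum_image (pieces_injOn m H _)]
  rfl

lemma pieces_nonempty {m : ℤ} {W : Finset (X × ℤ)} {H : Finset X} (hF : Frag D m W H) :
    (pieces D m W H).Nonempty := by
  rw [Finset.nonempty_iff_ne_empty]
  intro h
  have h1 := (hF.2.2 H hF.1 (Rel.refl m W H) hF.2.1).2
  rw [← wU_pieces, h, wU, Finset.sum_empty] at h1
  have : (0 : ℝ) < ep * D.cC m H := mul_pos ep_pos (D.cC_pos m H)
  linarith

end Vale.Agent.P064.Sym
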