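import Vale.Agent.P064.Sym.Defs

/-!
The descent through the stages: either some fragment is dominated by the given set,
or some set of the system is hit quickly in all elements of its support.
-/

namespace Vale.Agent.P064.Sym

open Finset
open Vale.Agent.P034 (LevelSys phi)
open scoped Classical

variable {X : Type} {D : LevelSys X}

/-- No fragment is dominated by `U`. -/
def NoFrag (D : LevelSys X) (W : Finset (X × ℤ)) (U : Finset X) : Prop :=
  ∀ m ∈ D.stages, ∀ H, Frag D m W H → ¬ Rel D m W H U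

/-- The invariant of the descent at stage `m`. -/
def Inv (D : LevelSys X) (m : ℤ) (W : Finset (X × ℤ)) (U : Finset X) : Prop :=
  ∃ H' ∈ D.Hs, Rel D m W H' U ∧
    ∀ m' ∈ Finset.Icc m (D.top : ℤ), wR D m' W H' ≤ bb (m' - m) * ep * D.cC m' H'

lemma descent_step {m : ℤ} (hm : m ∈ D.stages) {W : Finset (X × ℤ)} {U : Finset X}
    (hno : NoFrag D W U) (hex : ∃ H' ∈ D.Hs, Rel D m W H' U ∧ Hist D m W H') :
    Inv D m W U := by
  set K := D.Hs.filter (fun H' => Rel D m W H' U ∧ Hist D m W H') with hK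
  have hKne : K.Nonempty := by
    obtain ⟨H', h1, h2⟩ := hex
    exact ⟨H', Finset.mem_filter.mpr ⟨h1, h2⟩⟩
  by_cases hgood : ∃ H' ∈ K, wR D m W H' ≤ ep * D.cC m H'
  · obtain ⟨H', h1, h2⟩ := hgood
    obtain ⟨hs, hr, hh⟩ := Finset.mem_filter.mp h1
    refine ⟨H', hs, hr, fun m' hm' => ?_⟩
    obtain ⟨ha, hb⟩ := Finset.mem_Icc.mp hm'
    rcases eq_or_lt_of_le ha with rfl | hlt
    · rw [sub_self, bb_zero, one_mul]
      exact h2
    · have h3 := hh m' (Finset.mem_Ioc.mpr ⟨hlt, hb⟩)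
      linarith [wR_nonneg (D := D) m W H']
  · push Not at hgood
    obtain ⟨H₁, h1, h2⟩ := K.exists_min_image (fun H' => wR D m W H') hKne
    obtain ⟨hs, hr, hh⟩ := Finset.mem_filter.mp h1
    have hF : Frag D m W H₁ := by
      refine ⟨hs, hh, fun H' hH' hsub hh' => ?_⟩
      have hmem : H' ∈ K := Finset.mem_filter.mpr ⟨hH', hsub.trans hr, hh'⟩
      exact ⟨h2 H' hmem, hgood H' hmem⟩
    exact absurd hr (hno m hm H₁ hF)

lemma descent {W : Finset (X × ℤ)} {U : Finset X} (hU : U ∈ D.Hs) (hno : NoFrag D W U) :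
    ∀ j : ℕ, j ≤ 2 * D.top → Inv D ((D.top : ℤ) - j) W U := by
  intro j
  induction j with
  | zero =>
    intro _
    have hm : (D.top : ℤ) ∈ D.stages := Finset.mem_Icc.mpr ⟨by omega, le_refl _⟩
    simp only [Nat.cast_zero, sub_zero]
    refine descent_step hm hno ⟨U, hU, Rel.refl _ W U, ?_⟩
    intro m' hm'
    simp at hm'
  | succ j ih =>
    intro hj
    obtain ⟨H', hs, hr, hb⟩ := ih (by omega)
    set m : ℤ := (D.top : ℤ) - ((j + 1 : ℕ) : ℤ) with hmdef
    have hmj : (D.top : ℤ) - (j : ℤ) = m + 1 := by rw [hmdef]; push_cast; ring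
    rw [hmj] at hr hb
    have hm : m ∈ D.stages := Finset.mem_Icc.mpr ⟨by omega, by omega⟩
    refine descent_step hm hno ⟨H', hs, hr.mono (by omega), ?_⟩
    intro m' hm'
    obtain ⟨ha, hb'⟩ := Finset.mem_Ioc.mp hm'
    have h1 := hb m' (Finset.mem_Icc.mpr ⟨by omega, hb'⟩)
    have h2 := hb (m + 1) (Finset.mem_Icc.mpr ⟨le_refl _, by omega⟩)
    rw [sub_self, bb_zero, one_mul] at h2
    have h3 := wR_mono (D := D) (show m ≤ m + 1 by omega) W H'
    obtain ⟨n, hn⟩ : ∃ n : ℕ, m' = m + 1 + n := ⟨(m' - m - 1).toNat, by omega⟩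
    have h4 := D.pow_two_cC_le (m + 1) n H'
    rw [← hn] at h4
    have h5 : bb (m' - m) = bb (m' - (m + 1)) + 8 * (2 : ℝ) ^ (-(m' - m)) := by
      rw [← bb_step (m' - m), show m' - m - 1 = m' - (m + 1) by ring]
    have h6 : (2 : ℝ) ^ (-(m' - m)) = (1 / 2) * ((2 : ℝ) ^ n)⁻¹ := by
      rw [show -(m' - m) = -(n : ℤ) + (-1) by omega, zpow_add₀ (by norm_num), zpow_neg,
        zpow_natCast]
      norm_num
      ring
    have h7 : D.cC (m + 1) H' ≤ ((2 : ℝ) ^ n)⁻¹ * D.cC m' H' := by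
      rw [inv_mul_eq_div, le_div_iff₀ (by positivity)]
      linarith
    have h8 : ep * D.cC (m + 1) H' ≤ ep * (((2 : ℝ) ^ n)⁻¹ * D.cC m' H') :=
      mul_le_mul_of_nonneg_left h7 ep_pos.le
    rw [h5, h6]
    linarith

lemma exists_hits {W : Finset (X × ℤ)} {U : Finset X} (hU : U ∈ D.Hs)
    (hW : ∀ c ∈ W, c.2 ∈ rounds D.top) (hno : NoFrag D W U) :
    ∃ H₀ ∈ D.Hs, ∃ h : X → ℤ, (∀ e ∈ D.supp H₀, (e, h e) ∈ W) ∧
      ∑ e ∈ D.supp H₀, (1 / 4 : ℝ) ^ (D.lev H₀ e) * (h e).toNat ≤ 1 / 8 := by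
  have hinv := descent hU hno (2 * D.top) le_rfl
  set m₀ : ℤ := -(D.top : ℤ) with hm₀
  rw [show (D.top : ℤ) - ((2 * D.top : ℕ) : ℤ) = m₀ by rw [hm₀]; push_cast; ring] at hinv
  obtain ⟨H₀, hs, -, hb⟩ := hinv
  set hit : X → Finset ℤ := fun e => (rounds D.top).filter (fun i => (e, i) ∈ W) with hhitdef
  refine ⟨H₀, hs, fun e => if hne : (hit e).Nonempty then (hit e).min' hne else 0, ?_⟩
  have hhit : ∀ e ∈ D.supp H₀, ∃ i ≤ dp D m₀ H₀ e, (e, i) ∈ W := by
    intro e he
    by_contra hc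
    push Not at hc
    have hres : e ∈ res D m₀ W H₀ := mem_res.mpr ⟨he, hc⟩
    have h1 : om (dp D m₀ H₀ e) ≤ wR D m₀ W H₀ :=
      Finset.single_le_sum (f := fun x => om (dp D m₀ H₀ x)) (fun _ _ => (om_pos _).le) hres
    have h2 : (1 / 4 : ℝ) ^ D.top ≤ om (dp D m₀ H₀ e) := by
      have := D.lev_le H₀ hs e he
      refine le_trans ?_ (om_anti (show dp D m₀ H₀ e ≤ ((2 * D.top : ℕ) : ℤ) by
        unfold dp; push_cast; omega))
      unfold om
      rw [zpow_natCast, pow_mul]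
      exact pow_le_pow_left₀ (by norm_num) (by norm_num) _
    have h3 := hb m₀ (Finset.mem_Icc.mpr ⟨le_refl _, by omega⟩)
    rw [sub_self, bb_zero, one_mul] at h3
    have h4 : D.cC m₀ H₀ ≤ 5 * (1 / 4 : ℝ) ^ D.top := by
      by_cases htop : D.top = 0
      · have hm0 : m₀ = 0 := by omega
        rw [hm0, htop, pow_zero, mul_one]
        unfold LevelSys.cC
        have hle : ∀ x ∈ D.supp H₀, phi ((0 : ℤ) - D.lev H₀ x) = (1 / 4 : ℝ) ^ (D.lev H₀ x) := by
          intro x hx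
          have := D.lev_le H₀ hs x hx
          rw [show D.lev H₀ x = 0 by omega]
          simp [phi]
        rw [Finset.sum_congr rfl hle]
        have := D.kraft H₀ hs
        simp only [phi, le_refl, if_true, zpow_zero]
        linarith
      · refine (D.cC_le_of_neg (by omega) hs).trans ?_
        refine mul_le_mul_of_nonneg_left ?_ (by norm_num)
        rw [hm₀, zpow_neg, zpow_natCast, ← inv_pow]
        exact pow_le_pow_left₀ (by norm_num) (by norm_num) _
    have h5 : 0 < (1 / 4 : ℝ) ^ D.top := by positivity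
    have h6 : ep * D.cC m₀ H₀ ≤ ep * (5 * (1 / 4 : ℝ) ^ D.top) :=
      mul_le_mul_of_nonneg_left h4 ep_pos.le
    have h7 : ep * (5 * (1 / 4 : ℝ) ^ D.top) < (1 / 4 : ℝ) ^ D.top := by
      unfold ep; linarith
    linarith
  have hne : ∀ e ∈ D.supp H₀, (hit e).Nonempty := fun e he => by
    obtain ⟨i, -, hi⟩ := hhit e he
    exact ⟨i, Finset.mem_filter.mpr ⟨hW _ hi, hi⟩⟩
  refine ⟨fun e he => ?_, ?_⟩
  · simp only [dif_pos (hne e he)]
    exact (Finset.mem_filter.mp ((hit e).min'_mem (hne e he))).2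
  · have key : ∀ e ∈ D.supp H₀, (1 / 4 : ℝ) ^ (D.lev H₀ e) *
        ((if hne : (hit e).Nonempty then (hit e).min' hne else 0).toNat : ℕ) ≤
        ∑ m ∈ D.stages, if e ∈ res D m W H₀
          then (4 : ℝ) ^ (-m) * om (dp D m H₀ e) else 0 := by
      intro e he
      rw [dif_pos (hne e he)]
      obtain ⟨i, hi1, hi2⟩ := hhit e he
      set h := (hit e).min' (hne e he) with hh
      have hle : h ≤ i := (hit e).min'_le i (Finset.mem_filter.mpr ⟨hW _ hi2, hi2⟩)
      have hlev := D.lev_le H₀ hs e he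
      have hun : ∀ a, a < h → (e, a) ∉ W := fun a ha hc =>
        not_le.mpr ha ((hit e).min'_le a (Finset.mem_filter.mpr ⟨hW _ hc, hc⟩))
      set k := D.lev H₀ e with hk
      have hi1' : h ≤ (k : ℤ) + D.top := by
        unfold dp at hi1
        omega
      have hsub : (Finset.range h.toNat).image (fun j : ℕ => (k : ℤ) - j) ⊆ D.stages := by
        intro m hm
        obtain ⟨j, hj, rfl⟩ := Finset.mem_image.mp hm
        rw [Finset.mem_range] at hj
        exact Finset.mem_Icc.mpr ⟨by omega, by omega⟩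
      refine le_trans ?_ (Finset.sum_le_sum_of_subset_of_nonneg hsub fun m _ _ => by
        split
        · exact mul_nonneg (by positivity) (om_pos _).le
        · exact le_rfl)
      rw [Finset.sum_image (fun a _ b _ hab => by simpa using hab)]
      refine le_trans (le_of_eq ?_) (Finset.sum_le_sum (s := Finset.range h.toNat)
        (f := fun _ => (1 / 4 : ℝ) ^ k) fun j hj => ?_)
      · simp [mul_comm]
      rw [Finset.mem_range] at hj
      have hd : dp D ((k : ℤ) - j) H₀ e = j := by unfold dp; omega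
      have hmem : e ∈ res D ((k : ℤ) - j) W H₀ := by
        rw [mem_res]
        refine ⟨he, fun a ha => hun a ?_⟩
        rw [hd] at ha
        omega
      rw [if_pos hmem, hd, show -((k : ℤ) - j) = (j : ℤ) + -(k : ℤ) by ring,
        zpow_add₀ (by norm_num), zpow_neg, om, zpow_natCast, zpow_natCast, zpow_natCast, ← inv_pow,
        show ((4 : ℝ)⁻¹) = 1 / 4 by norm_num, mul_comm ((4 : ℝ) ^ j), mul_assoc, ← mul_pow]
      exact le_mul_of_one_le_right (by positivity) (one_le_pow₀ (by norm_num))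
    refine le_trans (Finset.sum_le_sum key) ?_
    rw [Finset.sum_comm]
    have hmain : ∀ m ∈ D.stages, (∑ e ∈ D.supp H₀, if e ∈ res D m W H₀
        then (4 : ℝ) ^ (-m) * om (dp D m H₀ e) else 0) ≤
          (9 * ep) * ((4 : ℝ) ^ (-m) * D.cC m H₀) := by
      intro m hm
      obtain ⟨ha, hb'⟩ := Finset.mem_Icc.mp hm
      rw [← Finset.sum_filter, Finset.filter_mem_eq_inter,
        Finset.inter_eq_right.mpr (fun x hx => (mem_res.mp hx).1), ← Finset.mul_sum]
      have h1 : wR D m W H₀ ≤ 9 * ep * D.cC m H₀ := by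
        refine (hb m (Finset.mem_Icc.mpr ⟨by omega, hb'⟩)).trans ?_
        exact mul_le_mul_of_nonneg_right
          (mul_le_mul_of_nonneg_right (bb_le _) ep_pos.le) (D.cC_pos m H₀).le
      calc (4 : ℝ) ^ (-m) * ∑ e ∈ res D m W H₀, om (dp D m H₀ e)
          ≤ (4 : ℝ) ^ (-m) * (9 * ep * D.cC m H₀) :=
            mul_le_mul_of_nonneg_left h1 (by positivity)
        _ = 9 * ep * ((4 : ℝ) ^ (-m) * D.cC m H₀) := by ring
    refine le_trans (Finset.sum_le_sum hmain) ?_
    rw [← Finset.mul_sum]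
    have h15 := D.sum_quarter_cC_le hs
    have : 9 * ep * ∑ m ∈ D.stages, (4 : ℝ) ^ (-m) * D.cC m H₀ ≤ 9 * ep * 15 :=
      mul_le_mul_of_nonneg_left h15 (by linarith [ep_pos])
    refine this.trans ?_
    unfold ep
    norm_num

end Vale.Agent.P064.Sym
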