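import Vale.Agent.P064.Sym.Measure
import Vale.Agent.P034.Weight

/-!
The weight of the quickly hit sets.
-/

namespace Vale.Agent.P064.Sym

open Finset
open Vale.Agent.P034 (totW locW nu suppOf levOf)
open scoped Classical

variable {X : Type} [Fintype X]

/-- The hit patterns of `S` of total positive round number at most its size. -/
noncomputable def pats (T : ℕ) (S : Finset X) : Finset ((e : X) → e ∈ S → ℤ) :=
  (S.pi fun _ => rounds T).filter (fun p => ∑ x ∈ S.attach, (p x.1 x.2).toNat ≤ S.card)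

/-- The coordinates of a pattern. -/
noncomputable def coords (S : Finset X) (p : (e : X) → e ∈ S → ℤ) : Finset (X × ℤ) :=
  S.attach.image (fun x => (x.1, p x.1 x.2))

/-- The weight of the quickly hit sets, counted by patterns. -/
noncomputable def good (g : Finset X → ℝ) (T : ℕ) (W : Finset (X × ℤ)) : ℝ :=
  ∑ S, g S * ∑ p ∈ pats T S, if coords S p ⊆ W then 1 else 0

lemma good_nonneg {g : Finset X → ℝ} (hg : ∀ S, 0 ≤ g S) (T : ℕ) (W : Finset (X × ℤ)) :
    0 ≤ good g T W :=
  Finset.sum_nonneg fun S _ => mul_nonneg (hg S)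
    (Finset.sum_nonneg fun p _ => by split <;> norm_num)

lemma gf_eq (i : ℤ) : gf i = (512 : ℝ) ^ i.toNat * (1 / 2 : ℝ) ^ i.natAbs := by
  unfold gf
  rcases le_or_gt 0 i with h | h
  · obtain ⟨n, rfl⟩ := Int.eq_ofNat_of_zero_le h
    rw [if_pos h, Int.toNat_natCast, Int.natAbs_natCast, zpow_natCast, ← mul_pow]
    norm_num
  · obtain ⟨n, rfl⟩ : ∃ n : ℕ, i = -(n : ℤ) := ⟨i.natAbs, by omega⟩
    rw [if_neg (not_le.mpr h), Int.natAbs_neg, Int.natAbs_natCast, zpow_neg, zpow_natCast,
      show (-(n : ℤ)).toNat = 0 by omega, pow_zero, one_mul, one_div, inv_pow]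

lemma expected_good_le {g : Finset X → ℝ} (hg : ∀ S, 0 ≤ g S) {q : ℝ} (hq : 0 ≤ q) (T : ℕ) :
    ∑ W ∈ (spc X T).powerset, mu q T W * good g T W ≤
      ∑ S, g S * (1536 * big * q) ^ S.card := by
  unfold good
  simp only [Finset.mul_sum]
  rw [Finset.sum_comm]
  refine Finset.sum_le_sum fun S _ => ?_
  rw [Finset.sum_comm]
  have hLq : 0 ≤ big * q := mul_nonneg big_pos.le hq
  have h1 : ∀ p ∈ pats T S, ∑ W ∈ (spc X T).powerset,
      mu q T W * (g S * if coords S p ⊆ W then 1 else 0) ≤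
        g S * ((512 * (big * q)) ^ S.card * ∏ x ∈ S.attach, (1 / 2 : ℝ) ^ (p x.1 x.2).natAbs) := by
    intro p hp
    obtain ⟨hp1, hp2⟩ := Finset.mem_filter.mp hp
    rw [Finset.mem_pi] at hp1
    have hsub : coords S p ⊆ spc X T := by
      intro c hc
      obtain ⟨x, -, rfl⟩ := Finset.mem_image.mp hc
      exact mem_spc.mpr (hp1 x.1 x.2)
    have he : ∀ W ∈ (spc X T).powerset,
        mu q T W * (g S * if coords S p ⊆ W then 1 else 0) =
          g S * if coords S p ⊆ W then mu q T W else 0 := by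
      intro W _
      split <;> ring
    rw [Finset.sum_congr rfl he, ← Finset.mul_sum, sum_mu_superset q T hsub]
    refine mul_le_mul_of_nonneg_left ?_ (hg S)
    unfold coords
    rw [Finset.prod_image (fun a _ b _ hab => Subtype.ext (congrArg Prod.fst hab))]
    refine (Finset.prod_le_prod (fun x _ => den_nonneg hq _)
      (fun x _ => min_le_right _ _)).trans ?_
    simp only [gf_eq]
    calc ∏ x ∈ S.attach, (big * q) * ((512 : ℝ) ^ (p x.1 x.2).toNat *
          (1 / 2 : ℝ) ^ (p x.1 x.2).natAbs)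
        = ((big * q) ^ S.card * (512 : ℝ) ^ (∑ x ∈ S.attach, (p x.1 x.2).toNat)) *
            ∏ x ∈ S.attach, (1 / 2 : ℝ) ^ (p x.1 x.2).natAbs := by
          rw [Finset.prod_mul_distrib (f := fun _ => big * q), Finset.prod_const,
            Finset.card_attach, Finset.prod_mul_distrib, Finset.prod_pow_eq_pow_sum, mul_assoc]
      _ ≤ ((big * q) ^ S.card * (512 : ℝ) ^ S.card) *
            ∏ x ∈ S.attach, (1 / 2 : ℝ) ^ (p x.1 x.2).natAbs :=
          mul_le_mul_of_nonneg_right
            (mul_le_mul_of_nonneg_left (pow_le_pow_right₀ (by norm_num) hp2) (pow_nonneg hLq _))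
            (Finset.prod_nonneg fun x _ => by positivity)
      _ = (512 * (big * q)) ^ S.card * ∏ x ∈ S.attach, (1 / 2 : ℝ) ^ (p x.1 x.2).natAbs := by
          rw [← mul_pow, mul_comm (big * q) 512]
  refine (Finset.sum_le_sum h1).trans ?_
  rw [← Finset.mul_sum, ← Finset.mul_sum]
  refine mul_le_mul_of_nonneg_left ?_ (hg S)
  have h2 : ∑ p ∈ pats T S, ∏ x ∈ S.attach, (1 / 2 : ℝ) ^ (p x.1 x.2).natAbs ≤
      (3 : ℝ) ^ S.card := by
    refine (Finset.sum_le_sum_of_subset_of_nonneg (Finset.filter_subset _ _)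
      fun p _ _ => Finset.prod_nonneg fun x _ => by positivity).trans ?_
    rw [← Finset.prod_sum S (fun _ => rounds T) (fun _ j => (1 / 2 : ℝ) ^ j.natAbs)]
    refine (Finset.prod_le_prod (fun _ _ => Finset.sum_nonneg fun j _ => by positivity)
      (fun _ _ => Vale.Agent.P034.sum_half_natAbs_le _)).trans ?_
    rw [Finset.prod_const]
  calc (512 * (big * q)) ^ S.card *
        ∑ p ∈ pats T S, ∏ x ∈ S.attach, (1 / 2 : ℝ) ^ (p x.1 x.2).natAbs
      ≤ (512 * (big * q)) ^ S.card * (3 : ℝ) ^ S.card :=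
        mul_le_mul_of_nonneg_left h2 (pow_nonneg (mul_nonneg (by norm_num) hLq) _)
    _ = (1536 * big * q) ^ S.card := by rw [← mul_pow]; ring

lemma good_lower {g : Finset X → ℝ} (hg : ∀ S, 0 ≤ g S) (h0 : g ∅ = 0) {W : Finset (X × ℤ)}
    {T : ℕ} (hW : W ⊆ spc X T) {H : Finset X} (hT : (1 / 2 : ℝ) ≤ totW g H) (h : X → ℤ)
    (hhit : ∀ e ∈ suppOf g H, (e, h e) ∈ W)
    (hsum : ∑ e ∈ suppOf g H, (1 / 4 : ℝ) ^ levOf g H e * (h e).toNat ≤ 1 / 8) :
    7 / 8 * totW g H ≤ good g T W := by
  have hTpos : 0 < totW g H := lt_of_lt_of_le (by norm_num) hT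
  have h1 : ∀ S ∈ H.powerset, g S - g S / S.card * ∑ e ∈ S, ((h e).toNat : ℝ) ≤
      g S * ∑ p ∈ pats T S, if coords S p ⊆ W then (1 : ℝ) else 0 := by
    intro S hS
    rw [Finset.mem_powerset] at hS
    have hnn : 0 ≤ ∑ p ∈ pats T S, if coords S p ⊆ W then (1 : ℝ) else 0 :=
      Finset.sum_nonneg fun p _ => by split <;> norm_num
    rcases eq_or_lt_of_le (hg S) with hz | hpos
    · rw [← hz]; simp
    have hne : S.Nonempty := by
      rw [Finset.nonempty_iff_ne_empty]
      rintro rfl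
      rw [h0] at hpos
      exact lt_irrefl _ hpos
    have hcpos : (0 : ℝ) < S.card := by exact_mod_cast hne.card_pos
    by_cases hb : (S.card : ℝ) < ∑ e ∈ S, ((h e).toNat : ℝ)
    · have h2 : g S ≤ g S / S.card * ∑ e ∈ S, ((h e).toNat : ℝ) := by
        calc g S = g S / S.card * S.card := by field_simp
          _ ≤ _ := mul_le_mul_of_nonneg_left hb.le (div_nonneg (hg S) hcpos.le)
      linarith [mul_nonneg (hg S) hnn]
    · have hsupp : ∀ e ∈ S, e ∈ suppOf g H := by
        intro e he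
        refine Finset.mem_filter.mpr ⟨hS he, div_pos ?_ hTpos⟩
        refine lt_of_lt_of_le (div_pos hpos hcpos) ?_
        exact Finset.single_le_sum (f := fun S : Finset X => g S / (S.card : ℝ))
          (fun U _ => div_nonneg (hg U) (Nat.cast_nonneg _))
          (Finset.mem_filter.mpr ⟨Finset.mem_powerset.mpr hS, he⟩)
      have hp : (fun e (_ : e ∈ S) => h e) ∈ pats T S := by
        refine Finset.mem_filter.mpr ⟨?_, ?_⟩
        · rw [Finset.mem_pi]
          intro e he
          exact mem_spc.mp (hW (hhit e (hsupp e he)))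
        · rw [Finset.sum_attach S (fun e => (h e).toNat)]
          push Not at hb
          exact_mod_cast hb
      have hc : coords S (fun e (_ : e ∈ S) => h e) ⊆ W := by
        intro c hc
        obtain ⟨x, -, rfl⟩ := Finset.mem_image.mp hc
        exact hhit x.1 (hsupp x.1 x.2)
      have h3 : (1 : ℝ) ≤ ∑ p ∈ pats T S, if coords S p ⊆ W then (1 : ℝ) else 0 := by
        refine le_trans ?_ (Finset.single_le_sum (f := fun p =>
          if coords S p ⊆ W then (1 : ℝ) else 0) (fun p _ => by split <;> norm_num) hp)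
        rw [if_pos hc]
      have h4 : g S * 1 ≤ g S * ∑ p ∈ pats T S, if coords S p ⊆ W then (1 : ℝ) else 0 :=
        mul_le_mul_of_nonneg_left h3 (hg S)
      have h5 : 0 ≤ g S / S.card * ∑ e ∈ S, ((h e).toNat : ℝ) :=
        mul_nonneg (div_nonneg (hg S) hcpos.le) (Finset.sum_nonneg fun e _ => Nat.cast_nonneg _)
      linarith
  have h2 := Finset.sum_le_sum h1
  rw [Finset.sum_sub_distrib, ← Vale.Agent.P034.sum_locW_mul H (fun e => ((h e).toNat : ℝ))] at h2
  have h3 : ∑ S ∈ H.powerset, g S * ∑ p ∈ pats T S, (if coords S p ⊆ W then (1 : ℝ) else 0) ≤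
      good g T W :=
    Finset.sum_le_sum_of_subset_of_nonneg (Finset.subset_univ _) fun S _ _ => mul_nonneg (hg S)
      (Finset.sum_nonneg fun p _ => by split <;> norm_num)
  have h4 : ∑ e ∈ H, ((h e).toNat : ℝ) * locW g H e ≤
      totW g H * ∑ e ∈ suppOf g H, (1 / 4 : ℝ) ^ levOf g H e * (h e).toNat := by
    have e1 : ∑ e ∈ H, ((h e).toNat : ℝ) * locW g H e =
        ∑ e ∈ suppOf g H, ((h e).toNat : ℝ) * locW g H e := by
      refine (Finset.sum_subset (Finset.filter_subset _ _) ?_).symm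
      intro e he hne
      have hnu : nu g H e ≤ 0 := not_lt.mp fun hp => hne (Finset.mem_filter.mpr ⟨he, hp⟩)
      have : locW g H e = 0 := by
        have h6 := Vale.Agent.P034.locW_nonneg hg H e
        have h7 : locW g H e = nu g H e * totW g H := by unfold nu; field_simp
        linarith [mul_nonpos_of_nonpos_of_nonneg hnu hTpos.le]
      rw [this, mul_zero]
    rw [e1, Finset.mul_sum]
    refine Finset.sum_le_sum fun e he => ?_
    have h6 := (Vale.Agent.P034.nu_bounds hg h0 hTpos he).1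
    have h7 : locW g H e = nu g H e * totW g H := by unfold nu; field_simp
    rw [h7]
    calc ((h e).toNat : ℝ) * (nu g H e * totW g H)
        ≤ ((h e).toNat : ℝ) * ((1 / 4 : ℝ) ^ levOf g H e * totW g H) :=
          mul_le_mul_of_nonneg_left (mul_le_mul_of_nonneg_right h6 hTpos.le) (Nat.cast_nonneg _)
      _ = _ := by ring
  have h5 : totW g H * ∑ e ∈ suppOf g H, (1 / 4 : ℝ) ^ levOf g H e * (h e).toNat ≤
      totW g H * (1 / 8) := mul_le_mul_of_nonneg_left hsum hTpos.le
  have h6 : totW g H = ∑ S ∈ H.powerset, g S := rfl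
  linarith

end Vale.Agent.P064.Sym
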