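import Vale.Agent.P064.Sym.Main
import Vale.Agent.P064.AllGraphs

/-!
The second Kahn–Kalai conjecture for every graph.
-/

namespace Vale.Agent.P064.Sym

open Finset

variable {n : ℕ}

/-- The constant of the theorem. -/
noncomputable def kkC : ℝ := 640 * symC

theorem spread_of_rich_dec {X G : Type} [Fintype X] [dec : DecidableEq X] [Group G] [Fintype G]
    (ρ : G →* Equiv.Perm X) (U : Finset X) {q : ℝ} (hq : 0 < q)
    (hR : ∀ K ⊆ U, 1 / 2 ≤ ((orb ρ K).card : ℝ) * q ^ K.card) (J : Finset X) :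
    ((inside ρ U J).card : ℝ) ≤ (symC * q) ^ J.card * (orb ρ J).card := by
  obtain rfl : dec = fun a b => Classical.propDecidable (a = b) := Subsingleton.elim _ _
  exact spread_of_rich ρ U hq hR J

theorem rich_spread {q : ℝ} (hq : 0 < q) {H0 : Finset (Sym2 (Fin n))} (hR : Rich q H0)
    (J : Finset (Sym2 (Fin n))) :
    ((inside (pairAct n) H0 J).card : ℝ) ≤ (symC * q) ^ J.card * (orb (pairAct n) J).card := by
  exact spread_of_rich_dec (pairAct n) H0 hq hR J

theorem second_kahn_kalai {v : ℕ} (hn : 2 ≤ n) (hv : v ≤ n) (H : SimpleGraph (Fin v))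
    (hH : H.edgeSet.Nonempty) :
    pFrac n H ≤ kkC * pE n H ∧ pC n H ≤ kkC * pE n H * Real.log n := by
  have hl : 0 ≤ Real.log (n : ℝ) := Real.log_natCast_nonneg n
  have hP := Blk.pE_pos hv H hH
  obtain ⟨q, ⟨hq, hyp⟩, hq2⟩ := exists_lt_of_csInf_lt
    (s := {p : ℝ | p ∈ Set.Icc 0 1 ∧ ∀ F : H.Subgraph, 1 / 2 ≤ expCopies n p F.coe})
    ⟨1, one_mem hv H⟩ (show pE n H < 2 * pE n H by linarith)
  have hR := rich_of_hyp hv H hq hyp
  have hq0 := q_pos hv H hH hq hR
  have hS : 0 < symC := by unfold symC; positivity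
  have hspread : ∀ J : Finset (Sym2 (Fin n)),
      ((inside (pairAct n) (image0 H hv) J).card : ℝ) ≤
        (symC * q) ^ J.card * (orb (pairAct n) J).card := rich_spread hq0 hR
  have hp1 : 0 ≤ symC * q := mul_nonneg hS.le hq0.le
  have h1 : pFrac n H ≤ symC * q :=
    le_trans (csInf_le ⟨0, fun p hp => hp.1.1⟩ ⟨⟨le_min zero_le_one hp1, min_le_left _ _⟩,
      fun F => frac_of_spread hv H hp1 (fun _ => hspread) F⟩) (min_le_right _ _)
  have h2 : pC n H ≤ 320 * Real.log n * (symC * q) := by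
    have h := contains_of_spread hn hv H (κ := symC * q) (mul_pos hS hq0) (fun _ => hspread)
    exact le_trans (csInf_le ⟨0, fun p hp => hp.1.1⟩
      ⟨⟨le_min zero_le_one (mul_nonneg (mul_nonneg (by norm_num) hl) hp1), min_le_left _ _⟩, h⟩)
      (min_le_right _ _)
  have h3 : symC * q ≤ symC * (2 * pE n H) := mul_le_mul_of_nonneg_left hq2.le hS.le
  unfold kkC
  constructor
  · have h5 : 0 ≤ symC * pE n H := mul_nonneg hS.le hP.le
    linarith
  · refine h2.trans ?_
    have := mul_le_mul_of_nonneg_left h3 (mul_nonneg (by norm_num : (0 : ℝ) ≤ 320) hl)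
    linarith

end Vale.Agent.P064.Sym
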