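import Vale.Agent.P064.Sym.Defs

/-!
A fragment is identified, up to a small choice, by the union with the random set
and by the numbers of its pieces in the various rounds.
-/

namespace Vale.Agent.P064.Sym

open Finset
open Vale.Agent.P034 (LevelSys phi)
open scoped Classical

variable {X : Type} {D : LevelSys X}

lemma cand_self {m : ℤ} {W : Finset (X × ℤ)} {H : Finset X} (hF : Frag D m W H) :
    Cand D m (W ∪ pieces D m W H) (wU (pieces D m W H)) H := by
  obtain ⟨hH, hh, -⟩ := hF
  have hWZ : W ⊆ W ∪ pieces D m W H := Finset.subset_union_left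
  refine ⟨hH, ?_, ?_⟩
  · rw [Finset.eq_empty_iff_forall_notMem]
    intro e he
    have h1 := res_subset_of_subset hWZ m H he
    exact (mem_res.mp he).2 (dp D m H e) le_rfl
      (Finset.mem_union_right _ (mem_pieces.mpr ⟨h1, rfl⟩))
  · intro m' hm'
    have h1 := hh m' hm'
    have h2 := wR_mono_set (D := D) hWZ m' H
    rw [wU_pieces]
    linarith

lemma ident {m : ℤ} {W : Finset (X × ℤ)} {H H₃ : Finset X} (hF : Frag D m W H)
    (hC : Cand D m (W ∪ pieces D m W H) (wU (pieces D m W H)) H₃) :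
    ep * D.cC m H₃ < wU (pieces D m W H) ∧
      ∀ c ∈ pieces D m W H, c.1 ∈ D.supp H₃ ∧ (D.lev H₃ c.1 : ℤ) = m + c.2 := by
  obtain ⟨-, -, hmin⟩ := hF
  obtain ⟨hH₃, hres, hhist⟩ := hC
  rw [wU_pieces] at hhist ⊢
  set T := res D m W H with hT
  set Z := W ∪ pieces D m W H with hZ
  have hWZ : W ⊆ Z := Finset.subset_union_left
  have claim : ∀ (k : ℤ) (e : X), e ∈ res D k W H₃ → e ∉ res D k Z H₃ →
      e ∈ T ∧ dp D m H e ≤ dp D k H₃ e := by
    intro k e h1 h2
    obtain ⟨h1s, h1u⟩ := mem_res.mp h1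
    rw [mem_res] at h2
    simp only [h1s, true_and, Unhit] at h2
    push Not at h2
    obtain ⟨i, hi, hiZ⟩ := h2
    rcases Finset.mem_union.mp hiZ with hW | hP
    · exact absurd hW (h1u i hi)
    · obtain ⟨h3, h4⟩ := mem_pieces.mp hP
      simp only at h3 h4
      exact ⟨h3, h4 ▸ hi⟩
  have hres3 : res D m W H₃ ⊆ T := fun e he => (claim m e he (by simp [hres])).1
  have hU3 : wR D m W H₃ = ∑ e ∈ T, if e ∈ res D m W H₃ then om (dp D m H₃ e) else 0 := by
    rw [Finset.sum_ite_mem, Finset.inter_eq_right.mpr hres3]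
    rfl
  have hfu : ∀ e ∈ T, (if e ∈ res D m W H₃ then om (dp D m H₃ e) else 0) ≤
      om (dp D m H e) := by
    intro e _
    split
    · next h => exact om_anti (claim m e h (by simp [hres])).2
    · exact (om_pos _).le
  have hrel : Rel D m W H₃ H := fun e he => by
    obtain ⟨h1, h2⟩ := claim m e he (by simp [hres])
    refine ⟨(mem_res.mp h1).1, ?_⟩
    unfold dp at h2
    omega
  have hh3 : Hist D m W H₃ := by
    intro m' hm'
    obtain ⟨hlt, -⟩ := Finset.mem_Ioc.mp hm'
    have h1 := hhist m' hm'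
    set Ext := res D m' W H₃ \ res D m' Z H₃ with hExt
    have hExtT : Ext ⊆ T := fun e he =>
      (claim m' e (Finset.mem_sdiff.mp he).1 (Finset.mem_sdiff.mp he).2).1
    have hsplit : wR D m' W H₃ = wR D m' Z H₃ + ∑ e ∈ T, if e ∈ Ext
        then om (dp D m' H₃ e) else 0 := by
      rw [Finset.sum_ite_mem, Finset.inter_eq_right.mpr hExtT]
      unfold wR
      rw [hExt, ← Finset.sum_sdiff (res_subset_of_subset hWZ m' H₃)]
      ring
    have hper : ∀ e ∈ T, (if e ∈ Ext then om (dp D m' H₃ e) else 0) +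
        4 * (if e ∈ res D m W H₃ then om (dp D m H₃ e) else 0) ≤
        4 * om (dp D m H e) := by
      intro e he
      have hu := hfu e he
      by_cases hx : e ∈ Ext
      · rw [if_pos hx]
        obtain ⟨-, hd⟩ := claim m' e (Finset.mem_sdiff.mp hx).1 (Finset.mem_sdiff.mp hx).2
        have hd' : dp D m H e + 1 ≤ dp D m H₃ e := by
          unfold dp at hd ⊢
          omega
        have hA : om (dp D m' H₃ e) ≤ om (dp D m H e) := om_anti hd
        have hB : (if e ∈ res D m W H₃ then om (dp D m H₃ e) else 0) ≤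
            3 / 4 * om (dp D m H e) := by
          split
          · rw [← om_succ]
            exact om_anti hd'
          · linarith [om_pos (dp D m H e)]
        linarith
      · rw [if_neg hx]
        linarith
    have hsum := Finset.sum_le_sum hper
    rw [Finset.sum_add_distrib, ← Finset.mul_sum, ← Finset.mul_sum, ← hU3] at hsum
    have hTU : ∑ e ∈ T, om (dp D m H e) = wR D m W H := rfl
    linarith
  obtain ⟨hle, hbig⟩ := hmin H₃ hH₃ hrel hh3
  have hge : wR D m W H₃ ≤ wR D m W H := hU3.trans_le (Finset.sum_le_sum hfu)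
  have heq : wR D m W H₃ = wR D m W H := le_antisymm hge hle
  have hall := (Finset.sum_eq_sum_iff_of_le hfu).mp (hU3.symm.trans heq)
  refine ⟨heq ▸ hbig, fun c hc => ?_⟩
  obtain ⟨hc1, hc2⟩ := mem_pieces.mp hc
  have h := hall c.1 hc1
  have hmem : c.1 ∈ res D m W H₃ := by
    by_contra hn
    rw [if_neg hn] at h
    exact absurd h (ne_of_lt (om_pos _))
  rw [if_pos hmem] at h
  have hdeq : dp D m H₃ c.1 = dp D m H c.1 := om_inj h
  refine ⟨(mem_res.mp hmem).1, ?_⟩
  unfold dp at hdeq hc2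
  omega

/-- The weight factor of round `i` in the count of levels. -/
noncomputable def wf (i : ℤ) : ℝ := if 0 ≤ i then (8 : ℝ) ^ i else (2 : ℝ) ^ i

lemma wf_pos (i : ℤ) : 0 < wf i := by unfold wf; split <;> positivity

lemma low_card_le (m : ℤ) (H : Finset X) (i : ℤ) :
    ((low D m H i).card : ℝ) ≤ wf i * D.cC m H := by
  unfold wf
  rcases le_or_gt 0 i with hi | hi
  · rw [if_pos hi]
    obtain ⟨n, rfl⟩ := Int.eq_ofNat_of_zero_le hi
    refine (D.card_lev_le_cC (m := m + n) H _ (Finset.filter_subset _ _)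
      fun e he => (Finset.mem_filter.mp he).2).trans ?_
    rw [zpow_natCast]
    clear hi
    induction n with
    | zero => simp
    | succ n ih =>
      rw [show m + ((n + 1 : ℕ) : ℤ) = m + n + 1 by push_cast; ring, pow_succ]
      refine (D.cC_succ_le _ H).trans ?_
      linarith
  · rw [if_neg (not_le.mpr hi), show i = -(-i) by ring, zpow_neg, inv_mul_eq_div,
      le_div_iff₀ (by positivity), neg_neg]
    unfold LevelSys.cC
    refine le_trans ?_ (le_add_of_nonneg_left (Vale.Agent.P034.phi_pos m).le)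
    refine le_trans ?_ (Finset.sum_le_sum_of_subset_of_nonneg (Finset.filter_subset _ _)
      fun e _ _ => (Vale.Agent.P034.phi_pos _).le : ∑ e ∈ low D m H i, phi (m - D.lev H e) ≤ _)
    rw [← nsmul_eq_mul, ← Finset.sum_const]
    refine Finset.sum_le_sum fun e he => ?_
    have hl := (Finset.mem_filter.mp he).2
    rw [Vale.Agent.P034.phi_of_nonneg (by omega)]
    exact zpow_le_zpow_right₀ (by norm_num) (by omega)

lemma om_le (i : ℤ) : om i ≤ 1 / (2 * ep) + ep / 2 * phi (-i) := by
  have he := ep_pos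
  rcases le_or_gt 0 i with hi | hi
  · have h1 : om i ≤ 1 := zpow_le_one₀ (by norm_num) (by norm_num) hi
    have h2 : 1 ≤ 1 / (2 * ep) := by unfold ep; norm_num
    have h3 := Vale.Agent.P034.phi_pos (-i)
    have h4 : 0 ≤ ep / 2 * phi (-i) := by positivity
    linarith
  · obtain ⟨j, rfl⟩ : ∃ j : ℕ, i = -(j : ℤ) := ⟨i.natAbs, by omega⟩
    rw [neg_neg, Vale.Agent.P034.phi_of_nonneg (by omega), zpow_natCast]
    unfold om
    rw [zpow_neg, zpow_natCast, ← inv_pow]
    set x := ((3 / 4 : ℝ)⁻¹) ^ j with hx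
    have hx2 : x * x ≤ 2 ^ j := by
      rw [hx, ← mul_pow]
      exact pow_le_pow_left₀ (by norm_num) (by norm_num) j
    have h1 : 2 * ep * x ≤ 1 + ep ^ 2 * (x * x) := by nlinarith [sq_nonneg (ep * x - 1)]
    have h2 : ep ^ 2 * (x * x) ≤ ep ^ 2 * 2 ^ j := mul_le_mul_of_nonneg_left hx2 (by positivity)
    rw [div_add' _ _ _ (by positivity), le_div_iff₀ (by positivity)]
    nlinarith

lemma cC_lt_of_slices {m : ℤ} {A : Finset (X × ℤ)} {H : Finset X}
    (hinj : Set.InjOn Prod.fst (A : Set (X × ℤ))) (hbig : ep * D.cC m H < wU A)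
    (hsl : ∀ c ∈ A, c.1 ∈ D.supp H ∧ (D.lev H c.1 : ℤ) = m + c.2) :
    D.cC m H < (A.card : ℝ) / ep ^ 2 := by
  have he := ep_pos
  have h1 : ∑ c ∈ A, phi (-c.2) ≤ D.cC m H := by
    have h : ∑ c ∈ A, phi (-c.2) = ∑ e ∈ A.image Prod.fst, phi (m - D.lev H e) := by
      rw [Finset.sum_image hinj]
      refine Finset.sum_congr rfl fun c hc => ?_
      rw [(hsl c hc).2]
      congr 1
      ring
    rw [h]
    unfold LevelSys.cC
    refine le_trans (Finset.sum_le_sum_of_subset_of_nonneg ?_
      fun e _ _ => (Vale.Agent.P034.phi_pos _).le)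
      (le_add_of_nonneg_left (Vale.Agent.P034.phi_pos m).le)
    intro e he'
    obtain ⟨c, hc, rfl⟩ := Finset.mem_image.mp he'
    exact (hsl c hc).1
  have h2 : wU A ≤ (A.card : ℝ) * (1 / (2 * ep)) + ep / 2 * ∑ c ∈ A, phi (-c.2) := by
    unfold wU
    refine (Finset.sum_le_sum fun c _ => om_le c.2).trans (le_of_eq ?_)
    rw [Finset.sum_add_distrib, Finset.sum_const, nsmul_eq_mul, Finset.mul_sum]
  have h3 := mul_le_mul_of_nonneg_left h1 (by positivity : 0 ≤ ep / 2)
  have h4 : ep / 2 * D.cC m H < (A.card : ℝ) * (1 / (2 * ep)) := by linarith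
  rw [lt_div_iff₀ (by positivity)]
  calc D.cC m H * ep ^ 2 = 2 * ep * (ep / 2 * D.cC m H) := by ring
    _ < 2 * ep * ((A.card : ℝ) * (1 / (2 * ep))) := by gcongr
    _ = (A.card : ℝ) := by field_simp

end Vale.Agent.P064.Sym
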