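import Vale.Agent.P064.Sym.Series
import Vale.Agent.P064.Orbit

/-!
Symmetric level systems: the piece sets of the fragments have symmetric distribution.
-/

namespace Vale.Agent.P064.Sym

open Finset
open Vale.Agent.P034 (LevelSys phi totW locW nu suppOf levOf)
open scoped Classical

variable {X G : Type} [Group G] [Fintype G] (ρ : G →* Equiv.Perm X)

/-- The action on coordinates, moving the element and keeping the round. -/
def lift : G →* Equiv.Perm (X × ℤ) where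
  toFun g := (ρ g).prodCongr (Equiv.refl ℤ)
  map_one' := by ext c <;> simp
  map_mul' g h := by ext c <;> simp

lemma lift_apply (g : G) (c : X × ℤ) : lift ρ g c = (ρ g c.1, c.2) := rfl

lemma lift_symm_apply (g : G) (c : X × ℤ) : (lift ρ g).symm c = ((ρ g).symm c.1, c.2) := rfl

lemma fst_tr_lift (g : G) (A : Finset (X × ℤ)) :
    (tr (lift ρ) g A).image Prod.fst = tr ρ g (A.image Prod.fst) := by
  simp only [tr, Finset.map_eq_image, Finset.image_image]
  rfl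

lemma prof_tr_lift (T : ℕ) (g : G) (A : Finset (X × ℤ)) :
    prof T (tr (lift ρ) g A) = prof T A := by
  funext i
  unfold prof tr
  rw [Finset.filter_map, Finset.card_map]
  rfl

/-- The system is invariant under the group. -/
structure Equi (D : LevelSys X) : Prop where
  hs : ∀ g, ∀ H ∈ D.Hs, tr ρ g H ∈ D.Hs
  supp : ∀ g H, D.supp (tr ρ g H) = tr ρ g (D.supp H)
  lev : ∀ g H e, D.lev (tr ρ g H) (ρ g e) = D.lev H e

variable {ρ} {D : LevelSys X}

lemma Equi.mem_hs (hE : Equi ρ D) (g : G) (H : Finset X) : tr ρ g H ∈ D.Hs ↔ H ∈ D.Hs :=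
  ⟨fun h => by simpa [tr_inv_tr] using hE.hs g⁻¹ _ h, hE.hs g H⟩

lemma Equi.cC_tr (hE : Equi ρ D) (g : G) (m : ℤ) (H : Finset X) :
    D.cC m (tr ρ g H) = D.cC m H := by
  unfold LevelSys.cC
  rw [hE.supp]
  conv_lhs => arg 2; rw [tr, Finset.sum_map]
  simp only [Equiv.coe_toEmbedding, hE.lev]

lemma Equi.lev' (hE : Equi ρ D) (g : G) (H : Finset X) (e : X) :
    D.lev (tr ρ g H) e = D.lev H ((ρ g).symm e) := by
  rw [← hE.lev g H ((ρ g).symm e), Equiv.apply_symm_apply]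

lemma Equi.low_tr (hE : Equi ρ D) (g : G) (m : ℤ) (H : Finset X) (i : ℤ) :
    (low D m (tr ρ g H) i).card = (low D m H i).card := by
  rw [show low D m (tr ρ g H) i = tr ρ g (low D m H i) by
    ext e
    simp only [low, Finset.mem_filter, mem_tr, hE.supp, hE.lev'], card_tr]

lemma Equi.res_tr (hE : Equi ρ D) (g : G) (m : ℤ) (Z : Finset (X × ℤ)) (H : Finset X) :
    res D m (tr (lift ρ) g Z) (tr ρ g H) = tr ρ g (res D m Z H) := by
  ext e
  simp only [mem_res, mem_tr, hE.supp, Unhit, dp, hE.lev', lift_symm_apply]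

lemma Equi.wR_tr (hE : Equi ρ D) (g : G) (m : ℤ) (Z : Finset (X × ℤ)) (H : Finset X) :
    wR D m (tr (lift ρ) g Z) (tr ρ g H) = wR D m Z H := by
  unfold wR
  rw [hE.res_tr]
  conv_lhs => rw [tr, Finset.sum_map]
  simp only [Equiv.coe_toEmbedding, dp, ← tr.eq_def, hE.lev]

lemma Equi.hist_tr (hE : Equi ρ D) (g : G) (m : ℤ) (Z : Finset (X × ℤ)) (H : Finset X) :
    Hist D m (tr (lift ρ) g Z) (tr ρ g H) ↔ Hist D m Z H := by
  simp only [Hist, hE.wR_tr, hE.cC_tr]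

lemma Equi.rel_tr (hE : Equi ρ D) (g : G) (m : ℤ) (Z : Finset (X × ℤ)) (H' H : Finset X) :
    Rel D m (tr (lift ρ) g Z) (tr ρ g H') (tr ρ g H) ↔ Rel D m Z H' H := by
  unfold Rel
  rw [hE.res_tr, hE.supp]
  constructor
  · intro h e he
    have := h (ρ g e) (by simpa [mem_tr] using he)
    simpa [mem_tr, hE.lev] using this
  · intro h e he
    rw [mem_tr] at he
    have := h _ he
    rw [mem_tr, ← (ρ g).apply_symm_apply e, hE.lev, hE.lev, Equiv.apply_symm_apply]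
    exact this

lemma Equi.frag_tr (hE : Equi ρ D) (g : G) {m : ℤ} {W : Finset (X × ℤ)} {H : Finset X}
    (hF : Frag D m W H) : Frag D m (tr (lift ρ) g W) (tr ρ g H) := by
  obtain ⟨h1, h2, h3⟩ := hF
  refine ⟨hE.hs g H h1, (hE.hist_tr g m W H).2 h2, fun H' hH' hrel hh => ?_⟩
  obtain ⟨K, rfl⟩ : ∃ K, H' = tr ρ g K := ⟨tr ρ g⁻¹ H', (tr_tr_inv ρ g H').symm⟩
  have := h3 K ((hE.mem_hs g K).1 hH') ((hE.rel_tr g m W K H).1 hrel)
    ((hE.hist_tr g m W K).1 hh)
  rwa [hE.wR_tr, hE.wR_tr, hE.cC_tr]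

lemma Equi.pieces_tr (hE : Equi ρ D) (g : G) (m : ℤ) (W : Finset (X × ℤ)) (H : Finset X) :
    pieces D m (tr (lift ρ) g W) (tr ρ g H) = tr (lift ρ) g (pieces D m W H) := by
  ext c
  rw [mem_tr, mem_pieces, mem_pieces, hE.res_tr, mem_tr, lift_symm_apply]
  simp only [dp]
  rw [← hE.lev g H ((ρ g).symm c.1), Equiv.apply_symm_apply]

lemma Equi.mem_pieceSets_tr (hE : Equi ρ D) (g : G) (m : ℤ) (W A : Finset (X × ℤ)) :
    tr (lift ρ) g A ∈ pieceSets D m (tr (lift ρ) g W) ↔ A ∈ pieceSets D m W := by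
  have key : ∀ (g : G) (W A : Finset (X × ℤ)), A ∈ pieceSets D m W →
      tr (lift ρ) g A ∈ pieceSets D m (tr (lift ρ) g W) := by
    intro g W A hA
    obtain ⟨H, hH, rfl⟩ := Finset.mem_image.mp hA
    obtain ⟨-, hF⟩ := Finset.mem_filter.mp hH
    exact Finset.mem_image.mpr ⟨tr ρ g H,
      Finset.mem_filter.mpr ⟨(hE.frag_tr g hF).1, hE.frag_tr g hF⟩, hE.pieces_tr g m W H⟩
  refine ⟨fun h => ?_, key g W A⟩
  have := key g⁻¹ _ _ h
  rwa [tr_inv_tr, tr_inv_tr] at this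

variable [Fintype X]

lemma spc_tr (T : ℕ) (g : G) : tr (lift ρ) g (spc X T) = spc X T := by
  ext c
  rw [mem_tr, mem_spc, mem_spc, lift_symm_apply]

lemma mu_tr (q : ℝ) (T : ℕ) (g : G) (W : Finset (X × ℤ)) :
    mu q T (tr (lift ρ) g W) = mu q T W := by
  unfold mu
  conv_lhs => rw [← spc_tr (ρ := ρ) T g]
  unfold tr
  rw [← Finset.map_sdiff, Finset.prod_map, Finset.prod_map]
  rfl

/-- The probability that `A` is the piece set of a fragment at stage `m`. -/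
noncomputable def prb (D : LevelSys X) (q : ℝ) (m : ℤ) (A : Finset (X × ℤ)) : ℝ :=
  ∑ W ∈ (spc X D.top).powerset, if A ∈ pieceSets D m W then mu q D.top W else 0

lemma Equi.prb_tr (hE : Equi ρ D) (q : ℝ) (m : ℤ) (g : G) (A : Finset (X × ℤ)) :
    prb D q m (tr (lift ρ) g A) = prb D q m A := by
  unfold prb
  refine Finset.sum_bij' (fun W _ => tr (lift ρ) g⁻¹ W) (fun W _ => tr (lift ρ) g W) ?_ ?_ ?_ ?_ ?_
  · intro W hW
    rw [Finset.mem_powerset] at hW ⊢
    rw [← spc_tr (ρ := ρ) D.top g⁻¹]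
    exact (tr_subset_iff (lift ρ) g⁻¹).2 hW
  · intro W hW
    rw [Finset.mem_powerset] at hW ⊢
    rw [← spc_tr (ρ := ρ) D.top g]
    exact (tr_subset_iff (lift ρ) g).2 hW
  · intro W _
    exact tr_tr_inv (lift ρ) g W
  · intro W _
    exact tr_inv_tr (lift ρ) g W
  · intro W _
    have h1 : tr (lift ρ) g A ∈ pieceSets D m W ↔ A ∈ pieceSets D m (tr (lift ρ) g⁻¹ W) := by
      rw [← hE.mem_pieceSets_tr g m (tr (lift ρ) g⁻¹ W) A, tr_tr_inv]
    rw [mu_tr]
    exact if_congr h1 rfl rfl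

lemma pieces_subset_spc {m : ℤ} (hm : m ∈ D.stages) {W : Finset (X × ℤ)} {H : Finset X}
    (hH : H ∈ D.Hs) : pieces D m W H ⊆ spc X D.top := by
  intro c hc
  obtain ⟨h1, h2⟩ := mem_pieces.mp hc
  rw [mem_spc, h2]
  have := D.lev_le H hH c.1 (mem_res.mp h1).1
  obtain ⟨ha, hb⟩ := Finset.mem_Icc.mp hm
  refine Finset.mem_Icc.mpr ⟨?_, ?_⟩ <;> unfold dp <;> omega

lemma expect_pieces_le {q : ℝ} (hq : 0 ≤ q) {m : ℤ} (hm : m ∈ D.stages)
    (t : ↥(rounds D.top) → ℕ) :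
    ∑ W ∈ (spc X D.top).powerset, mu q D.top W *
        ∑ A ∈ (pieceSets D m W).filter (fun A => prof D.top A = t), q ^ A.card ≤
      ∑ Z ∈ (spc X D.top).powerset, mu q D.top Z *
        ∑ A ∈ (valid D m Z).filter (fun A => prof D.top A = t), ∏ c ∈ A, xv c.2 := by
  set V := (spc X D.top).powerset with hV
  set PS : Finset (X × ℤ) → Finset (Finset (X × ℤ)) :=
    fun W => (pieceSets D m W).filter (fun A => prof D.top A = t) with hPS
  have hkey : ∀ x ∈ V.sigma PS, x.2 ⊆ spc X D.top ∧ Disjoint x.1 x.2 ∧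
      x.1 ∪ x.2 ⊆ spc X D.top ∧
      x.2 ∈ (valid D m (x.1 ∪ x.2)).filter (fun A => prof D.top A = t) := by
    intro x hx
    obtain ⟨hW, hA⟩ := Finset.mem_sigma.mp hx
    obtain ⟨hA', ht⟩ := Finset.mem_filter.mp hA
    obtain ⟨H, hH, hAeq⟩ := Finset.mem_image.mp hA'
    obtain ⟨hHs, hF⟩ := Finset.mem_filter.mp hH
    have hsub : x.2 ⊆ spc X D.top := hAeq ▸ pieces_subset_spc hm hHs
    refine ⟨hsub, hAeq ▸ disjoint_pieces m x.1 H,
      Finset.union_subset (Finset.mem_powerset.mp hW) hsub, ?_⟩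
    exact Finset.mem_filter.mpr ⟨Finset.mem_filter.mpr
      ⟨Finset.mem_powerset.mpr hsub, x.1, H, hF, hAeq.symm, rfl⟩, ht⟩
  simp only [Finset.mul_sum]
  rw [Finset.sum_sigma' V PS (fun W A => mu q D.top W * q ^ A.card)]
  refine (Finset.sum_le_sum
    (g := fun x => mu q D.top (x.1 ∪ x.2) * ∏ c ∈ x.2, xv c.2) fun x hx => ?_).trans ?_
  · obtain ⟨h1, h2, -, -⟩ := hkey x hx
    exact mu_shift hq h1 h2
  rw [← Finset.sum_image (s := V.sigma PS)
    (g := fun x => (⟨x.1 ∪ x.2, x.2⟩ : Σ _ : Finset (X × ℤ), Finset (X × ℤ)))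
    (f := fun y => mu q D.top y.1 * ∏ c ∈ y.2, xv c.2)]
  · refine le_trans (Finset.sum_le_sum_of_subset_of_nonneg
      (t := V.sigma fun Z => (valid D m Z).filter (fun A => prof D.top A = t)) ?_
      (fun y _ _ => mul_nonneg (mu_nonneg hq _ _) (Finset.prod_nonneg fun c _ => xv_nonneg _))) ?_
    · intro y hy
      obtain ⟨x, hx, rfl⟩ := Finset.mem_image.mp hy
      obtain ⟨-, -, h3, h4⟩ := hkey x hx
      exact Finset.mem_sigma.mpr ⟨Finset.mem_powerset.mpr h3, h4⟩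
    · rw [Finset.sum_sigma]
  · intro x hx y hy hxy
    rw [Finset.mem_coe] at hx hy
    obtain ⟨-, hdx, -, -⟩ := hkey x hx
    obtain ⟨-, hdy, -, -⟩ := hkey y hy
    simp only [Sigma.mk.injEq, heq_eq_eq] at hxy
    obtain ⟨hu, ha⟩ := hxy
    obtain ⟨W, A⟩ := x
    obtain ⟨W', A'⟩ := y
    simp only at ha hu hdx hdy
    subst ha
    have hW : W = W' := by
      rw [← Finset.union_sdiff_cancel_right hdx, hu, Finset.union_sdiff_cancel_right hdy]
    subst hW
    rfl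

end Vale.Agent.P064.Sym
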