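import Vale.Agent.P064.Sym.Descent
import Vale.Agent.P064.Sym.Symm

/-!
The spread bound for copies inside a set all of whose subsets have rich orbits.
-/

namespace Vale.Agent.P064.Sym

open Finset
open Vale.Agent.P034 (LevelSys phi totW locW nu suppOf levOf)
open scoped Classical

variable {X G : Type} [Fintype X] [Group G] [Fintype G]

/-- The constant of the spread bound. -/
noncomputable def symC : ℝ := 2 ^ 114

/-- The weight of the orbit of `J`, normalized on `U`. -/
noncomputable def wgt (ρ : G →* Equiv.Perm X) (U J : Finset X) (S : Finset X) : ℝ :=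
  if S ∈ orb ρ J then 1 / ((inside ρ U J).card : ℝ) else 0

section weight

variable {ρ : G →* Equiv.Perm X} {g : Finset X → ℝ}

lemma totW_tr (hinv : ∀ σ S, g (tr ρ σ S) = g S) (σ : G) (H : Finset X) :
    totW g (tr ρ σ H) = totW g H := by
  unfold totW
  refine Finset.sum_bij' (fun S _ => tr ρ σ⁻¹ S) (fun S _ => tr ρ σ S) ?_ ?_ ?_ ?_ ?_
  · intro S hS
    rw [Finset.mem_powerset] at hS ⊢
    rw [← tr_inv_tr ρ σ H]
    exact (tr_subset_iff ρ σ⁻¹).2 hS
  · intro S hS
    rw [Finset.mem_powerset] at hS ⊢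
    exact (tr_subset_iff ρ σ).2 hS
  · exact fun S _ => tr_tr_inv ρ σ S
  · exact fun S _ => tr_inv_tr ρ σ S
  · exact fun S _ => (hinv σ⁻¹ S).symm

lemma locW_tr (hinv : ∀ σ S, g (tr ρ σ S) = g S) (σ : G) (H : Finset X) (e : X) :
    locW g (tr ρ σ H) (ρ σ e) = locW g H e := by
  unfold locW
  refine Finset.sum_bij' (fun S _ => tr ρ σ⁻¹ S) (fun S _ => tr ρ σ S) ?_ ?_ ?_ ?_ ?_
  · intro S hS
    simp only [Finset.mem_filter, Finset.mem_powerset] at hS ⊢
    refine ⟨?_, ?_⟩
    · rw [← tr_inv_tr ρ σ H]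
      exact (tr_subset_iff ρ σ⁻¹).2 hS.1
    · rw [mem_tr, map_inv]
      exact hS.2
  · intro S hS
    simp only [Finset.mem_filter, Finset.mem_powerset] at hS ⊢
    refine ⟨(tr_subset_iff ρ σ).2 hS.1, ?_⟩
    rw [mem_tr, Equiv.symm_apply_apply]
    exact hS.2
  · exact fun S _ => tr_tr_inv ρ σ S
  · exact fun S _ => tr_inv_tr ρ σ S
  · intro S _
    rw [hinv, card_tr]

lemma nu_tr (hinv : ∀ σ S, g (tr ρ σ S) = g S) (σ : G) (H : Finset X) (e : X) :
    nu g (tr ρ σ H) (ρ σ e) = nu g H e := by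
  unfold nu
  rw [locW_tr hinv, totW_tr hinv]

end weight

/-- The level system on the translates of `U`. -/
noncomputable def sysU (ρ : G →* Equiv.Perm X) (U : Finset X) (g : Finset X → ℝ)
    (hg : ∀ S, 0 ≤ g S) (h0 : g ∅ = 0) (hT : ∀ H ∈ orb ρ U, 0 < totW g H) : LevelSys X where
  Hs := orb ρ U
  supp := suppOf g
  lev := levOf g
  top := (orb ρ U).sup fun H => (suppOf g H).sup (levOf g H)
  supp_sub := fun H _ => Finset.filter_subset _ _
  lev_le := fun H hH e he =>
    le_trans (Finset.le_sup (f := levOf g H) he)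
      (Finset.le_sup (f := fun H => (suppOf g H).sup (levOf g H)) hH)
  kraft := fun H hH => by
    refine (Finset.sum_le_sum fun e he =>
      (Vale.Agent.P034.nu_bounds hg h0 (hT H hH) he).2).trans ?_
    rw [← Finset.mul_sum]
    have h := Finset.sum_le_sum_of_subset_of_nonneg (f := fun e => nu g H e)
      (Finset.filter_subset (fun e => 0 < nu g H e) H)
      (fun i _ _ => Vale.Agent.P034.nu_nonneg hg H i)
    rw [Vale.Agent.P034.sum_nu h0 (hT H hH)] at h
    unfold suppOf
    linarith

variable {ρ : G →* Equiv.Perm X} {D : LevelSys X}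

/-- The coordinate sets at stage `m` that are dominated by `U`. -/
noncomputable def comp (D : LevelSys X) (m : ℤ) (U : Finset X) : Finset (Finset (X × ℤ)) :=
  (spc X D.top).powerset.filter (fun A => A.Nonempty ∧ Set.InjOn Prod.fst (A : Set (X × ℤ)) ∧
    ∀ c ∈ A, c.1 ∈ low D m U c.2)

lemma stage_le (hE : Equi ρ D) {U : Finset X} (hHs : D.Hs = orb ρ U) {q : ℝ} (hq : 0 ≤ q)
    (hR : ∀ K ⊆ U, 1 / 2 ≤ ((orb ρ K).card : ℝ) * q ^ K.card) {m : ℤ} (hm : m ∈ D.stages) :
    ∑ A ∈ comp D m U, prb D q m A ≤ 2 * ∑ t ∈ profiles X D.top, stB m t := by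
  have hU : U ∈ D.Hs := hHs ▸ mem_orb_self ρ U
  rw [Finset.mul_sum, ← Finset.sum_fiberwise_of_maps_to (g := prof D.top) (t := profiles X D.top)]
  swap
  · intro A hA
    obtain ⟨hs, hne, -⟩ := Finset.mem_filter.mp hA
    exact prof_mem_profiles (fun c hc => mem_spc.mp (Finset.mem_powerset.mp hs hc)) hne
  refine Finset.sum_le_sum fun t _ => ?_
  set Et := ∑ W ∈ (spc X D.top).powerset, mu q D.top W *
      ∑ A ∈ (pieceSets D m W).filter (fun A => prof D.top A = t), q ^ A.card with hEt
  set nb : ℤ → ℕ := fun i => (low D m U i).card with hnbdef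
  have hA : ∀ A ∈ (comp D m U).filter (fun A => prof D.top A = t), prb D q m A ≤ 2 * Et := by
    intro A hA
    obtain ⟨hA', ht⟩ := Finset.mem_filter.mp hA
    obtain ⟨-, -, hinj, hlow⟩ := Finset.mem_filter.mp hA'
    have hP : 0 ≤ prb D q m A :=
      Finset.sum_nonneg fun W _ => by split <;> [exact mu_nonneg hq _ _; exact le_rfl]
    have hsub : A.image Prod.fst ⊆ U := by
      intro e he
      obtain ⟨c, hc, rfl⟩ := Finset.mem_image.mp he
      exact D.supp_sub U hU (Finset.mem_filter.mp (hlow c hc)).1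
    have hcard : (orb ρ (A.image Prod.fst)).card ≤ (orb (lift ρ) A).card := by
      refine le_trans (Finset.card_le_card ?_) (Finset.card_image_le (f := Finset.image Prod.fst))
      intro S hS
      obtain ⟨σ, rfl⟩ := (mem_orb ρ).1 hS
      exact Finset.mem_image.mpr ⟨_, (mem_orb (lift ρ)).2 ⟨σ, rfl⟩, fst_tr_lift ρ σ A⟩
    have h1 : (1 : ℝ) / 2 ≤ ((orb (lift ρ) A).card : ℝ) * q ^ A.card := by
      refine (hR _ hsub).trans ?_
      rw [Finset.card_image_of_injOn hinj]
      exact mul_le_mul_of_nonneg_right (Nat.cast_le.mpr hcard) (pow_nonneg hq _)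
    have h2 : ((orb (lift ρ) A).card : ℝ) * q ^ A.card * prb D q m A ≤ Et := by
      have h3 : ((orb (lift ρ) A).card : ℝ) * q ^ A.card * prb D q m A =
          ∑ B ∈ orb (lift ρ) A, prb D q m B * q ^ A.card := by
        rw [Finset.sum_congr rfl (g := fun _ => prb D q m A * q ^ A.card) ?_, Finset.sum_const,
          nsmul_eq_mul]
        · ring
        intro B hB
        obtain ⟨σ, rfl⟩ := (mem_orb (lift ρ)).1 hB
        rw [hE.prb_tr]
      rw [h3]
      unfold prb
      simp only [Finset.sum_mul, ite_mul, zero_mul]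
      rw [Finset.sum_comm, hEt]
      refine Finset.sum_le_sum fun W _ => ?_
      rw [← Finset.sum_filter, Finset.mul_sum]
      refine le_trans (le_of_eq (Finset.sum_congr rfl fun B hB => ?_))
        (Finset.sum_le_sum_of_subset_of_nonneg ?_ fun B _ _ =>
          mul_nonneg (mu_nonneg hq _ _) (pow_nonneg hq _))
      · rw [card_of_mem_orb (lift ρ) (Finset.mem_filter.mp hB).1]
      · intro B hB
        obtain ⟨hB1, hB2⟩ := Finset.mem_filter.mp hB
        obtain ⟨σ, rfl⟩ := (mem_orb (lift ρ)).1 hB1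
        exact Finset.mem_filter.mpr ⟨hB2, (prof_tr_lift ρ _ σ A).trans ht⟩
    have h4 := mul_le_mul_of_nonneg_right h1 hP
    linarith
  refine (Finset.sum_le_sum hA).trans ?_
  rw [Finset.sum_const, nsmul_eq_mul]
  set P1 := ∏ i : ↥(rounds D.top), ((nb i).choose (t i) : ℝ) with hP1
  set P2 := ∏ i : ↥(rounds D.top), ((nb i).choose (t i) : ℝ) * xv i ^ t i with hP2
  have hP10 : 0 ≤ P1 := Finset.prod_nonneg fun i _ => Nat.cast_nonneg _
  have hP20 : 0 ≤ P2 :=
    Finset.prod_nonneg fun i _ => mul_nonneg (Nat.cast_nonneg _) (pow_nonneg (xv_nonneg _) _)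
  have hcount : (((comp D m U).filter (fun A => prof D.top A = t)).card : ℝ) ≤ P1 := by
    rw [hP1, ← Nat.cast_prod]
    refine Nat.cast_le.mpr (card_prof_le t (fun i => low D m U i) _ fun A hA => ?_)
    obtain ⟨hA', ht⟩ := Finset.mem_filter.mp hA
    obtain ⟨hs, -, -, hlow⟩ := Finset.mem_filter.mp hA'
    exact ⟨Finset.mem_powerset.mp hs, ht, hlow⟩
  have horb : ∀ H ∈ D.Hs, D.cC m H = D.cC m U ∧ ∀ i, (low D m H i).card ≤ nb i := by
    intro H hH
    rw [hHs] at hH
    obtain ⟨σ, rfl⟩ := (mem_orb ρ).1 hH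
    exact ⟨hE.cC_tr σ m U, fun i => (hE.low_tr σ m U i).le⟩
  have hEt' : Et ≤ ∑ Z ∈ (spc X D.top).powerset, mu q D.top Z *
      ∑ A ∈ (valid D m Z).filter (fun A => prof D.top A = t), ∏ c ∈ A, xv c.2 :=
    expect_pieces_le hq hm t
  have hst := stB_nonneg m t
  have hEt0 : 0 ≤ Et := Finset.sum_nonneg fun W _ =>
    mul_nonneg (mu_nonneg hq _ _) (Finset.sum_nonneg fun A _ => pow_nonneg hq _)
  by_cases hZ : ∃ Z, ((valid D m Z).filter (fun A => prof D.top A = t)).Nonempty
  · obtain ⟨Z, hZ⟩ := hZ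
    obtain ⟨H₀, hH₀, hC⟩ := (fiber_bound t nb (fun H hH => (horb H hH).2)).2 hZ
    rw [(horb H₀ hH₀).1] at hC
    have h5 : Et ≤ P2 := by
      refine hEt'.trans ?_
      calc ∑ Z ∈ (spc X D.top).powerset, mu q D.top Z *
            ∑ A ∈ (valid D m Z).filter (fun A => prof D.top A = t), ∏ c ∈ A, xv c.2
          ≤ ∑ Z ∈ (spc X D.top).powerset, mu q D.top Z * P2 :=
            Finset.sum_le_sum fun Z _ => mul_le_mul_of_nonneg_left
              (fiber_bound t nb (fun H hH => (horb H hH).2)).1 (mu_nonneg hq _ _)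
        _ = P2 := by rw [← Finset.sum_mul, sum_mu, one_mul]
    have h6 : P1 * P2 ≤ stB m t := by
      refine le_trans (le_of_eq ?_) (prod_le_stB (D.cC_pos m U).le t nb
        (fun i => low_card_le m U i) (fun h => D.cC_le_of_neg h hU)
        (fun h => D.two_zpow_le_cC h U) hC)
      rw [hP1, hP2, ← Finset.prod_mul_distrib]
      exact Finset.prod_congr rfl fun i _ => by ring
    calc _ ≤ P1 * (2 * P2) :=
          mul_le_mul hcount (by linarith) (by linarith) hP10
      _ = 2 * (P1 * P2) := by ring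
      _ ≤ 2 * stB m t := by linarith
  · push Not at hZ
    have h5 : Et ≤ 0 := hEt'.trans (le_of_eq (Finset.sum_eq_zero fun Z _ => by
      rw [hZ Z, Finset.sum_empty, mul_zero]))
    rw [show Et = 0 from le_antisymm h5 hEt0, mul_zero, mul_zero]
    linarith

/-- If all subsets of `U` have rich orbits at `q`, then every orbit is spread at `symC * q`
inside `U`. -/
theorem spread_of_rich (ρ : G →* Equiv.Perm X) (U : Finset X) {q : ℝ} (hq : 0 < q)
    (hR : ∀ K ⊆ U, 1 / 2 ≤ ((orb ρ K).card : ℝ) * q ^ K.card) (J : Finset X) :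
    ((inside ρ U J).card : ℝ) ≤ (symC * q) ^ J.card * (orb ρ J).card := by
  by_contra hcon
  push Not at hcon
  set N : ℝ := ((inside ρ U J).card : ℝ) with hN
  have hC0 : 0 < symC * q := mul_pos (by norm_num [symC]) hq
  have hpos : (0 : ℝ) < (orb ρ J).card := by exact_mod_cast orb_pos ρ J
  have hN0 : 0 < N := lt_trans (mul_pos (pow_pos hC0 _) hpos) hcon
  have hJ : J.Nonempty := by
    rw [Finset.nonempty_iff_ne_empty]
    rintro rfl
    have h : (inside ρ U ∅).card ≤ 1 := by
      refine le_trans (Finset.card_le_card (Finset.filter_subset _ _)) ?_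
      rw [orb_empty, Finset.card_singleton]
    have h2 : ((inside ρ U ∅).card : ℝ) ≤ 1 := by exact_mod_cast h
    rw [orb_empty, Finset.card_singleton, Finset.card_empty, pow_zero] at hcon
    push_cast at hcon
    linarith
  set g := wgt ρ U J with hgdef
  have hg : ∀ S, 0 ≤ g S := fun S => by
    simp only [hgdef, wgt]; split <;> positivity
  have h0 : g ∅ = 0 := by
    simp only [hgdef, wgt]
    rw [if_neg]
    intro h
    have := card_of_mem_orb ρ h
    rw [Finset.card_empty] at this
    exact hJ.ne_empty (Finset.card_eq_zero.mp this.symm)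
  have hinv : ∀ σ S, g (tr ρ σ S) = g S := fun σ S => by
    simp only [hgdef, wgt, tr_mem_orb_iff]
  have hTU : totW g U = 1 := by
    unfold totW
    simp only [hgdef, wgt]
    rw [← Finset.sum_filter, Finset.sum_const, nsmul_eq_mul]
    rw [show U.powerset.filter (fun S => S ∈ orb ρ J) = inside ρ U J by
      ext S
      simp [inside, and_comm]]
    exact mul_one_div_cancel hN0.ne'
  have hTall : ∀ H ∈ orb ρ U, totW g H = 1 := fun H hH => by
    obtain ⟨σ, rfl⟩ := (mem_orb ρ).1 hH
    rw [totW_tr hinv, hTU]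
  set D := sysU ρ U g hg h0 (fun H hH => by rw [hTall H hH]; norm_num) with hD
  have hE : Equi ρ D := by
    refine ⟨fun σ H hH => (tr_mem_orb_iff ρ σ).2 hH, fun σ H => ?_, fun σ H e => ?_⟩
    · ext e
      change e ∈ suppOf g (tr ρ σ H) ↔ e ∈ tr ρ σ (suppOf g H)
      simp only [suppOf, Finset.mem_filter, mem_tr]
      rw [← nu_tr hinv σ H ((ρ σ).symm e), Equiv.apply_symm_apply]
    · change levOf g (tr ρ σ H) (ρ σ e) = levOf g H e
      simp only [levOf, nu_tr hinv]
  set T := D.top with hT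
  have hgood : ∑ W ∈ (spc X T).powerset, mu q T W * good g T W ≤ 1 / 4 := by
    refine (expected_good_le hg hq.le T).trans ?_
    simp only [hgdef, wgt, ite_mul, zero_mul]
    rw [← Finset.sum_filter, show Finset.univ.filter (fun S => S ∈ orb ρ J) = orb ρ J by ext; simp,
      Finset.sum_congr rfl (g := fun _ => 1 / N * (1536 * big * q) ^ J.card)
        (fun S hS => by rw [card_of_mem_orb ρ hS]), Finset.sum_const, nsmul_eq_mul]
    have h1 : (1536 * big * q) ^ J.card ≤ 1 / 4 * (symC * q) ^ J.card := by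
      have he : 1536 * big * q ≤ 1 / 4 * (symC * q) := by
        have : 1536 * big ≤ 1 / 4 * symC := by
          have h14 : symC = 2 ^ 14 * big := by rw [symC, big, ← pow_add]
          rw [h14]
          linarith [big_pos]
        calc 1536 * big * q ≤ 1 / 4 * symC * q := mul_le_mul_of_nonneg_right this hq.le
          _ = _ := by ring
      refine (pow_le_pow_left₀ (mul_nonneg (mul_nonneg (by norm_num) big_pos.le) hq.le) he _).trans ?_
      rw [mul_pow]
      exact mul_le_mul_of_nonneg_right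
        (pow_le_of_le_one (by norm_num) (by norm_num) hJ.card_pos.ne') (pow_nonneg hC0.le _)
    calc ((orb ρ J).card : ℝ) * (1 / N * (1536 * big * q) ^ J.card)
        ≤ ((orb ρ J).card : ℝ) * (1 / N * (1 / 4 * (symC * q) ^ J.card)) :=
          mul_le_mul_of_nonneg_left (mul_le_mul_of_nonneg_left h1 (by positivity)) hpos.le
      _ = 1 / 4 * ((symC * q) ^ J.card * (orb ρ J).card / N) := by ring
      _ ≤ 1 / 4 * 1 := mul_le_mul_of_nonneg_left ((div_le_one hN0).mpr hcon.le) (by norm_num)
      _ = 1 / 4 := mul_one _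
  have hcov : ∀ W ∈ (spc X T).powerset, 1 ≤ 8 / 7 * good g T W +
      ∑ m ∈ D.stages, ∑ A ∈ comp D m U, if A ∈ pieceSets D m W then (1 : ℝ) else 0 := by
    intro W hW
    rw [Finset.mem_powerset] at hW
    have hUs : U ∈ D.Hs := mem_orb_self ρ U
    have hgnn := good_nonneg hg T W
    have hsnn : 0 ≤ ∑ m ∈ D.stages, ∑ A ∈ comp D m U,
        if A ∈ pieceSets D m W then (1 : ℝ) else 0 :=
      Finset.sum_nonneg fun m _ => Finset.sum_nonneg fun A _ => by split <;> norm_num
    by_cases hno : NoFrag D W U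
    · obtain ⟨H₀, hH₀, h, hhit, hsum⟩ :=
        exists_hits hUs (fun c hc => mem_spc.mp (hW hc)) hno
      have hl := good_lower hg h0 hW (H := H₀) (by rw [hTall H₀ hH₀]; norm_num) h hhit hsum
      rw [hTall H₀ hH₀] at hl
      linarith
    · unfold NoFrag at hno
      push Not at hno
      obtain ⟨m, hm, H, hF, hrel⟩ := hno
      have hA : pieces D m W H ∈ comp D m U := by
        refine Finset.mem_filter.mpr ⟨Finset.mem_powerset.mpr (pieces_subset_spc hm hF.1),
          pieces_nonempty hF, pieces_fst_injOn m W H, fun c hc => ?_⟩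
        obtain ⟨h1, h2⟩ := mem_pieces.mp hc
        obtain ⟨h3, h4⟩ := hrel c.1 h1
        refine Finset.mem_filter.mpr ⟨h3, ?_⟩
        unfold dp at h2
        omega
      have hPS : pieces D m W H ∈ pieceSets D m W :=
        Finset.mem_image.mpr ⟨H, Finset.mem_filter.mpr ⟨hF.1, hF⟩, rfl⟩
      have h1 : (1 : ℝ) ≤ ∑ A ∈ comp D m U, if A ∈ pieceSets D m W then (1 : ℝ) else 0 := by
        refine le_trans ?_ (Finset.single_le_sum (f := fun A =>
          if A ∈ pieceSets D m W then (1 : ℝ) else 0) (fun A _ => by split <;> norm_num) hA)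
        rw [if_pos hPS]
      have h2 := Finset.single_le_sum (f := fun m => ∑ A ∈ comp D m U,
        if A ∈ pieceSets D m W then (1 : ℝ) else 0)
        (fun m _ => Finset.sum_nonneg fun A _ => by split <;> norm_num) hm
      linarith
  have hmain := Finset.sum_le_sum fun W hW =>
    mul_le_mul_of_nonneg_left (hcov W hW) (mu_nonneg hq.le T W)
  simp only [mul_one, mul_add, Finset.mul_sum, Finset.sum_add_distrib, sum_mu] at hmain
  have hstages : ∑ W ∈ (spc X T).powerset, ∑ m ∈ D.stages, ∑ A ∈ comp D m U,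
      mu q T W * (if A ∈ pieceSets D m W then (1 : ℝ) else 0) ≤ 2 * (1 / 100) := by
    rw [Finset.sum_comm]
    have h1 : ∀ m ∈ D.stages, ∑ W ∈ (spc X T).powerset, ∑ A ∈ comp D m U,
        mu q T W * (if A ∈ pieceSets D m W then (1 : ℝ) else 0) =
        ∑ A ∈ comp D m U, prb D q m A := by
      intro m _
      rw [Finset.sum_comm]
      exact Finset.sum_congr rfl fun A _ => Finset.sum_congr rfl fun W _ => by
        split <;> simp [hT]
    rw [Finset.sum_congr rfl h1]
    refine (Finset.sum_le_sum fun m hm => stage_le hE rfl hq.le hR hm).trans ?_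
    rw [← Finset.mul_sum]
    exact mul_le_mul_of_nonneg_left (sum_stB_le D.top (Fintype.card X) D.stages) (by norm_num)
  have hg2 : ∑ W ∈ (spc X T).powerset, mu q T W * (8 / 7 * good g T W) ≤ 8 / 7 * (1 / 4) := by
    rw [Finset.sum_congr rfl (g := fun W => 8 / 7 * (mu q T W * good g T W))
      (fun W _ => by ring), ← Finset.mul_sum]
    exact mul_le_mul_of_nonneg_left hgood (by norm_num)
  linarith

end Vale.Agent.P064.Sym
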