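import Vale.Agent.P064.Sym.Ident

/-!
The random set of coordinates, with densities decreasing geometrically away from round zero
in the negative rounds and increasing in the positive rounds.
-/

namespace Vale.Agent.P064.Sym

open Finset
open scoped Classical

variable {X : Type}

/-- The growth factor of the densities. -/
noncomputable def gf (i : ℤ) : ℝ := if 0 ≤ i then (256 : ℝ) ^ i else (2 : ℝ) ^ i

/-- The density of round `i`. -/
noncomputable def den (q : ℝ) (i : ℤ) : ℝ := min 1 (big * q * gf i)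

/-- The cost of a piece in round `i` after the shift. -/
noncomputable def xv (i : ℤ) : ℝ := 1 / (big * gf i)

lemma gf_pos (i : ℤ) : 0 < gf i := by unfold gf; split <;> positivity

lemma den_le_one (q : ℝ) (i : ℤ) : den q i ≤ 1 := min_le_left _ _

lemma den_nonneg {q : ℝ} (hq : 0 ≤ q) (i : ℤ) : 0 ≤ den q i :=
  le_min zero_le_one (mul_nonneg (mul_nonneg big_pos.le hq) (gf_pos i).le)

lemma xv_nonneg (i : ℤ) : 0 ≤ xv i := one_div_nonneg.mpr (mul_pos big_pos (gf_pos i)).le

lemma one_sub_den_mul_le {q : ℝ} (hq : 0 ≤ q) (i : ℤ) :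
    (1 - den q i) * q ≤ den q i * xv i := by
  rcases le_total (big * q * gf i) 1 with h | h
  · have he : den q i = big * q * gf i := min_eq_right h
    have hx : den q i * xv i = q := by
      rw [he]; unfold xv
      have := big_pos
      have := gf_pos i
      field_simp
    rw [hx]
    have := den_nonneg hq i
    calc (1 - den q i) * q ≤ 1 * q := mul_le_mul_of_nonneg_right (by linarith) hq
      _ = q := one_mul q
  · have he : den q i = 1 := min_eq_left h
    rw [he, sub_self, zero_mul, one_mul]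
    exact xv_nonneg i

/-- All coordinates of the rounds for levels up to `T`. -/
noncomputable def spc (X : Type) [Fintype X] (T : ℕ) : Finset (X × ℤ) :=
  (Finset.univ : Finset X) ×ˢ rounds T

variable [Fintype X]

lemma mem_spc {T : ℕ} {c : X × ℤ} : c ∈ spc X T ↔ c.2 ∈ rounds T := by
  simp [spc]

/-- The probability of the outcome `W`. -/
noncomputable def mu (q : ℝ) (T : ℕ) (W : Finset (X × ℤ)) : ℝ :=
  (∏ c ∈ W, den q c.2) * ∏ c ∈ spc X T \ W, (1 - den q c.2)

lemma mu_nonneg {q : ℝ} (hq : 0 ≤ q) (T : ℕ) (W : Finset (X × ℤ)) : 0 ≤ mu q T W :=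
  mul_nonneg (Finset.prod_nonneg fun _ _ => den_nonneg hq _)
    (Finset.prod_nonneg fun _ _ => sub_nonneg.mpr (den_le_one _ _))

lemma sum_mu (q : ℝ) (T : ℕ) : ∑ W ∈ (spc X T).powerset, mu q T W = 1 := by
  unfold mu
  rw [← Finset.prod_add]
  simp

lemma sum_mu_superset (q : ℝ) (T : ℕ) {A : Finset (X × ℤ)} (hA : A ⊆ spc X T) :
    ∑ W ∈ (spc X T).powerset, (if A ⊆ W then mu q T W else 0) = ∏ c ∈ A, den q c.2 := by
  have h1 : ∀ W ∈ (spc X T).powerset, (if A ⊆ W then mu q T W else 0) =
      (∏ c ∈ W, den q c.2) *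
        ∏ c ∈ spc X T \ W, (if c ∈ A then 0 else 1 - den q c.2) := by
    intro W _
    split
    · next h =>
      unfold mu
      congr 1
      refine Finset.prod_congr rfl fun c hc => ?_
      rw [if_neg fun hc' => (Finset.mem_sdiff.mp hc).2 (h hc')]
    · next h =>
      obtain ⟨c, hc, hcW⟩ := Finset.not_subset.mp h
      rw [Finset.prod_eq_zero (i := c) (Finset.mem_sdiff.mpr ⟨hA hc, hcW⟩) (by rw [if_pos hc]),
        mul_zero]
  rw [Finset.sum_congr rfl h1, ← Finset.prod_add]
  rw [← Finset.prod_subset hA (f := fun c => den q c.2 + if c ∈ A then 0 else 1 - den q c.2)]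
  · exact Finset.prod_congr rfl fun c hc => by rw [if_pos hc, add_zero]
  · intro c _ hc
    rw [if_neg hc]
    ring

lemma mu_shift {q : ℝ} (hq : 0 ≤ q) {T : ℕ} {W A : Finset (X × ℤ)} (hA : A ⊆ spc X T)
    (hd : Disjoint W A) :
    mu q T W * q ^ A.card ≤ mu q T (W ∪ A) * ∏ c ∈ A, xv c.2 := by
  unfold mu
  have hsplit : spc X T \ W = (spc X T \ (W ∪ A)) ∪ A := by
    ext c
    simp only [Finset.mem_sdiff, Finset.mem_union, not_or]
    constructor
    · rintro ⟨h1, h2⟩
      by_cases hc : c ∈ A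
      · exact Or.inr hc
      · exact Or.inl ⟨h1, h2, hc⟩
    · rintro (⟨h1, h2, -⟩ | hc)
      · exact ⟨h1, h2⟩
      · exact ⟨hA hc, fun hW => Finset.disjoint_left.mp hd hW hc⟩
  have hd' : Disjoint (spc X T \ (W ∪ A)) A := by
    rw [Finset.disjoint_left]
    intro c hc hcA
    exact (Finset.mem_sdiff.mp hc).2 (Finset.mem_union_right _ hcA)
  rw [hsplit, Finset.prod_union hd', Finset.prod_union hd, ← Finset.prod_const]
  calc (∏ c ∈ W, den q c.2) * ((∏ c ∈ spc X T \ (W ∪ A), (1 - den q c.2)) *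
        ∏ c ∈ A, (1 - den q c.2)) * ∏ _c ∈ A, q
      = ((∏ c ∈ W, den q c.2) * ∏ c ∈ spc X T \ (W ∪ A), (1 - den q c.2)) *
        ∏ c ∈ A, (1 - den q c.2) * q := by
        rw [Finset.prod_mul_distrib]; ring
    _ ≤ ((∏ c ∈ W, den q c.2) * ∏ c ∈ spc X T \ (W ∪ A), (1 - den q c.2)) *
        ∏ c ∈ A, den q c.2 * xv c.2 := by
        refine mul_le_mul_of_nonneg_left ?_ (mul_nonneg
          (Finset.prod_nonneg fun _ _ => den_nonneg hq _)
          (Finset.prod_nonneg fun _ _ => sub_nonneg.mpr (den_le_one _ _)))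
        exact Finset.prod_le_prod
          (fun c _ => mul_nonneg (sub_nonneg.mpr (den_le_one _ _)) hq)
          (fun c _ => one_sub_den_mul_le hq _)
    _ = _ := by rw [Finset.prod_mul_distrib]; ring

lemma sum_natAbs_le {a : ℝ} (h0 : 0 ≤ a) (h1 : a < 1) (s : Finset ℤ) :
    ∑ i ∈ s, a ^ i.natAbs ≤ (1 + a) / (1 - a) := by
  set M := s.sup Int.natAbs with hM
  have hsub : s ⊆ (Finset.range (M + 1)).image (fun n : ℕ => (n : ℤ)) ∪
      (Finset.range M).image (fun n : ℕ => -((n : ℤ) + 1)) := by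
    intro i hi
    have hle : i.natAbs ≤ M := Finset.le_sup (f := Int.natAbs) hi
    rcases le_or_gt 0 i with h | h
    · exact Finset.mem_union_left _ (Finset.mem_image.mpr
        ⟨i.natAbs, Finset.mem_range.mpr (by omega), by omega⟩)
    · exact Finset.mem_union_right _ (Finset.mem_image.mpr
        ⟨i.natAbs - 1, Finset.mem_range.mpr (by omega), by omega⟩)
  refine (Finset.sum_le_sum_of_subset_of_nonneg hsub fun i _ _ => pow_nonneg h0 _).trans ?_
  rw [Finset.sum_union]
  · rw [Finset.sum_image (fun x _ y _ h => by simpa using h),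
      Finset.sum_image (fun x _ y _ h => by simpa using h)]
    have e : ∀ n : ℕ, (-((n : ℤ) + 1)).natAbs = n + 1 := fun n => by omega
    simp only [Int.natAbs_natCast, e, pow_succ, ← Finset.sum_mul]
    have g : ∀ n : ℕ, ∑ x ∈ Finset.range n, a ^ x ≤ 1 / (1 - a) := by
      intro n
      rw [le_div_iff₀ (by linarith)]
      have := geom_sum_mul a n
      have := pow_nonneg h0 n
      linarith
    refine (add_le_add (g _) (mul_le_mul_of_nonneg_right (g M) h0)).trans (le_of_eq ?_)
    ring
  · rw [Finset.disjoint_left]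
    intro i hi hi'
    obtain ⟨a, -, rfl⟩ := Finset.mem_image.mp hi
    obtain ⟨b, -, hb⟩ := Finset.mem_image.mp hi'
    omega

end Vale.Agent.P064.Sym
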