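import Vale.Agent.P064.Sym.Count

/-!
The bound for a profile at a stage, and its sum over all profiles and stages.
-/

namespace Vale.Agent.P064.Sym

open Finset
open scoped Classical

/-- The weight of round `i` at a negative stage `m`. -/
noncomputable def aW (m : ℤ) (i : ℤ) : ℝ := 25 * (64 : ℝ) ^ m * (1 / 2 : ℝ) ^ i.natAbs / big

/-- The weight of round `i` at a nonnegative stage. -/
noncomputable def zW (i : ℤ) : ℝ := 576 * (8 / 9 : ℝ) ^ i.natAbs / (ep ^ 4 * big)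

/-- The bound for the profile `t` at stage `m`. -/
noncomputable def stB {T : ℕ} (m : ℤ) (t : ↥(rounds T) → ℕ) : ℝ :=
  if m < 0 then ∏ i : ↥(rounds T), aW m i ^ t i
  else if (2 : ℝ) ^ m < (∑ i : ↥(rounds T), (t i : ℝ)) / ep ^ 2 then
    ∏ i : ↥(rounds T), zW i ^ t i else 0

lemma aW_nonneg (m i : ℤ) : 0 ≤ aW m i := div_nonneg (by positivity) big_pos.le

lemma zW_nonneg (i : ℤ) : 0 ≤ zW i :=
  div_nonneg (by positivity) (mul_nonneg (by have := ep_pos; positivity) big_pos.le)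

lemma stB_nonneg {T : ℕ} (m : ℤ) (t : ↥(rounds T) → ℕ) : 0 ≤ stB m t := by
  unfold stB
  split
  · exact Finset.prod_nonneg fun i _ => pow_nonneg (aW_nonneg _ _) _
  · split
    · exact Finset.prod_nonneg fun i _ => pow_nonneg (zW_nonneg _) _
    · exact le_rfl

lemma wf_sq_xv_le (i : ℤ) : wf i ^ 2 * xv i ≤ (1 / 2 : ℝ) ^ i.natAbs / big := by
  have hb := big_pos
  unfold wf xv gf
  rcases le_or_gt 0 i with h | h
  · obtain ⟨n, rfl⟩ := Int.eq_ofNat_of_zero_le h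
    rw [if_pos h, if_pos h, zpow_natCast, zpow_natCast, Int.natAbs_natCast]
    rw [show ((8 : ℝ) ^ n) ^ 2 * (1 / (big * 256 ^ n)) = (64 / 256 : ℝ) ^ n / big by
      rw [← pow_mul, mul_comm n 2, pow_mul, div_pow]; norm_num; field_simp]
    exact div_le_div_of_nonneg_right (pow_le_pow_left₀ (by norm_num) (by norm_num) n) hb.le
  · obtain ⟨n, rfl⟩ : ∃ n : ℕ, i = -(n : ℤ) := ⟨i.natAbs, by omega⟩
    rw [if_neg (not_le.mpr h), if_neg (not_le.mpr h), zpow_neg, zpow_natCast, Int.natAbs_neg,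
      Int.natAbs_natCast]
    refine le_of_eq ?_
    rw [div_pow, one_pow]
    field_simp

lemma sq_mul_xv_le {n : ℕ} {C : ℝ} {i : ℤ} (hn : (n : ℝ) ≤ wf i * C) :
    (n : ℝ) ^ 2 * xv i ≤ C ^ 2 * ((1 / 2 : ℝ) ^ i.natAbs / big) := by
  calc (n : ℝ) ^ 2 * xv i ≤ (wf i * C) ^ 2 * xv i :=
        mul_le_mul_of_nonneg_right (pow_le_pow_left₀ (Nat.cast_nonneg _) hn 2) (xv_nonneg i)
    _ = C ^ 2 * (wf i ^ 2 * xv i) := by ring
    _ ≤ _ := mul_le_mul_of_nonneg_left (wf_sq_xv_le i) (sq_nonneg C)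

lemma term_neg {m : ℤ} {C : ℝ} (hC0 : 0 ≤ C) (hC : C ≤ 5 * (8 : ℝ) ^ m) (n k : ℕ) (i : ℤ)
    (hn : (n : ℝ) ≤ wf i * C) : (n.choose k : ℝ) ^ 2 * xv i ^ k ≤ aW m i ^ k := by
  have h1 : (n.choose k : ℝ) ≤ (n : ℝ) ^ k := by exact_mod_cast Nat.choose_le_pow n k
  refine (mul_le_mul_of_nonneg_right (pow_le_pow_left₀ (Nat.cast_nonneg _) h1 2)
    (pow_nonneg (xv_nonneg i) _)).trans ?_
  rw [← pow_mul, mul_comm k 2, pow_mul, ← mul_pow]
  refine pow_le_pow_left₀ (mul_nonneg (sq_nonneg _) (xv_nonneg i)) ?_ k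
  refine (sq_mul_xv_le hn).trans ?_
  refine (mul_le_mul_of_nonneg_right (pow_le_pow_left₀ hC0 hC 2)
    (div_nonneg (by positivity) big_pos.le)).trans (le_of_eq ?_)
  unfold aW
  rw [show (64 : ℝ) = 8 * 8 by norm_num, mul_zpow]
  ring

lemma term_pos {C N : ℝ} (hC0 : 0 ≤ C) (hN : 0 ≤ N) (hC : C ≤ N / ep ^ 2) (n k : ℕ) (i : ℤ)
    (hn : (n : ℝ) ≤ wf i * C) :
    (n.choose k : ℝ) ^ 2 * xv i ^ k ≤
      Real.exp (N * ((3 / 4) ^ i.natAbs / 8)) ^ 2 * (zW i / 9) ^ k := by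
  have he := ep_pos
  have hb := big_pos
  have h1 := Nat.choose_le_pow_div (α := ℝ) k n
  refine (mul_le_mul_of_nonneg_right (pow_le_pow_left₀ (Nat.cast_nonneg _) h1 2)
    (pow_nonneg (xv_nonneg i) _)).trans ?_
  set c := (3 / 4 : ℝ) ^ i.natAbs / 8 with hc
  have hc0 : 0 ≤ N * c := mul_nonneg hN (by rw [hc]; positivity)
  have h2 : (n : ℝ) ^ 2 * xv i ≤ (N * c) ^ 2 * (zW i / 9) := by
    refine (sq_mul_xv_le hn).trans ?_
    refine (mul_le_mul_of_nonneg_right (pow_le_pow_left₀ hC0 hC 2)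
      (div_nonneg (by positivity) hb.le)).trans (le_of_eq ?_)
    have e : ((3 / 4 : ℝ) ^ i.natAbs) ^ 2 * (8 / 9) ^ i.natAbs = (1 / 2) ^ i.natAbs := by
      rw [← pow_mul, mul_comm _ 2, pow_mul, ← mul_pow]
      norm_num
    rw [← e, hc]
    unfold zW
    field_simp
    ring
  have h3 : ((n : ℝ) ^ k / (k.factorial : ℝ)) ^ 2 * xv i ^ k ≤
      ((N * c) ^ k / (k.factorial : ℝ)) ^ 2 * (zW i / 9) ^ k := by
    have h4 := pow_le_pow_left₀ (mul_nonneg (sq_nonneg _) (xv_nonneg i)) h2 k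
    calc ((n : ℝ) ^ k / (k.factorial : ℝ)) ^ 2 * xv i ^ k
        = ((n : ℝ) ^ 2 * xv i) ^ k / ((k.factorial : ℝ)) ^ 2 := by ring
      _ ≤ ((N * c) ^ 2 * (zW i / 9)) ^ k / ((k.factorial : ℝ)) ^ 2 :=
          div_le_div_of_nonneg_right h4 (sq_nonneg _)
      _ = _ := by ring
  refine h3.trans (mul_le_mul_of_nonneg_right ?_
    (pow_nonneg (div_nonneg (zW_nonneg i) (by norm_num)) _))
  exact pow_le_pow_left₀ (div_nonneg (pow_nonneg hc0 _) (Nat.cast_nonneg _))
    (Real.pow_div_factorial_le_exp _ hc0 k) 2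

lemma prod_le_stB {T : ℕ} {m : ℤ} {C : ℝ} (hC0 : 0 ≤ C) (t : ↥(rounds T) → ℕ) (nb : ℤ → ℕ)
    (hnb : ∀ i, (nb i : ℝ) ≤ wf i * C) (hneg : m < 0 → C ≤ 5 * (8 : ℝ) ^ m)
    (hlow : 0 ≤ m → (2 : ℝ) ^ m ≤ C) (hhigh : C < (∑ i : ↥(rounds T), (t i : ℝ)) / ep ^ 2) :
    ∏ i : ↥(rounds T), ((nb i).choose (t i) : ℝ) ^ 2 * xv i ^ t i ≤ stB m t := by
  unfold stB
  have hnn : ∀ i : ↥(rounds T), 0 ≤ ((nb i).choose (t i) : ℝ) ^ 2 * xv i ^ t i :=
    fun i => mul_nonneg (sq_nonneg _) (pow_nonneg (xv_nonneg _) _)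
  by_cases hm : m < 0
  · rw [if_pos hm]
    exact Finset.prod_le_prod (fun i _ => hnn i)
      (fun i _ => term_neg hC0 (hneg hm) _ _ _ (hnb i))
  · rw [if_neg hm, if_pos (lt_of_le_of_lt (hlow (not_lt.mp hm)) hhigh)]
    set N : ℝ := ∑ i : ↥(rounds T), (t i : ℝ) with hNdef
    have hN0 : 0 ≤ N := Finset.sum_nonneg fun i _ => Nat.cast_nonneg _
    calc ∏ i : ↥(rounds T), ((nb i).choose (t i) : ℝ) ^ 2 * xv i ^ t i
        ≤ ∏ i : ↥(rounds T), Real.exp (N * ((3 / 4) ^ (i : ℤ).natAbs / 8)) ^ 2 *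
            (zW i / 9) ^ t i :=
          Finset.prod_le_prod (fun i _ => hnn i)
            (fun i _ => term_pos hC0 hN0 hhigh.le _ _ _ (hnb i))
      _ = Real.exp (∑ i : ↥(rounds T), N * ((3 / 4) ^ (i : ℤ).natAbs / 8)) ^ 2 *
            ∏ i : ↥(rounds T), (zW i / 9) ^ t i := by
          rw [Real.exp_sum, Finset.prod_mul_distrib, Finset.prod_pow]
      _ ≤ (∏ i : ↥(rounds T), (9 : ℝ) ^ t i) * ∏ i : ↥(rounds T), (zW i / 9) ^ t i := by
          refine mul_le_mul_of_nonneg_right ?_ (Finset.prod_nonneg fun i _ =>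
            pow_nonneg (div_nonneg (zW_nonneg _) (by norm_num)) _)
          rw [← Finset.mul_sum]
          have hs : ∑ i : ↥(rounds T), (3 / 4 : ℝ) ^ (i : ℤ).natAbs / 8 ≤ 1 := by
            rw [Finset.sum_coe_sort (rounds T) (fun i => (3 / 4 : ℝ) ^ i.natAbs / 8),
              ← Finset.sum_div, div_le_iff₀ (by norm_num)]
            refine (sum_natAbs_le (by norm_num) (by norm_num) _).trans ?_
            norm_num
          refine (pow_le_pow_left₀ (Real.exp_pos _).le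
            (Real.exp_le_exp.mpr (mul_le_of_le_one_right hN0 hs)) 2).trans ?_
          rw [hNdef, ← Nat.cast_sum, ← mul_one ((∑ i : ↥(rounds T), t i : ℕ) : ℝ),
            Real.exp_nat_mul, ← pow_mul, mul_comm _ 2, pow_mul, Finset.prod_pow_eq_pow_sum]
          refine pow_le_pow_left₀ (sq_nonneg _) ?_ _
          nlinarith [Real.exp_one_lt_three, Real.exp_pos 1]
      _ = ∏ i : ↥(rounds T), zW i ^ t i := by
          rw [← Finset.prod_mul_distrib]
          refine Finset.prod_congr rfl fun i _ => ?_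
          rw [← mul_pow, mul_div_cancel₀ _ (by norm_num : (9 : ℝ) ≠ 0)]

lemma sum_profiles_le {ι : Type} [Fintype ι] [DecidableEq ι] (a : ι → ℝ) (ha : ∀ i, 0 ≤ a i)
    (hs : ∑ i, a i ≤ 1 / 4) (n : ℕ) :
    ∑ t ∈ (Fintype.piFinset fun _ : ι => Finset.range (n + 1)).erase 0,
      ∏ i, a i ^ t i ≤ 4 * ∑ i, a i := by
  have hle : ∀ i, a i ≤ 1 / 4 := fun i =>
    le_trans (Finset.single_le_sum (fun j _ => ha j) (Finset.mem_univ i)) hs
  have h0 : (0 : ι → ℕ) ∈ Fintype.piFinset fun _ : ι => Finset.range (n + 1) := by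
    rw [Fintype.mem_piFinset]; intro i; simp
  have h1 := Finset.add_sum_erase _ (fun t => ∏ i, a i ^ t i) h0
  have h2 := Finset.prod_univ_sum (fun _ : ι => Finset.range (n + 1)) (fun i j => a i ^ j)
  simp only [Pi.zero_apply, pow_zero, Finset.prod_const_one] at h1
  have h3 : ∏ i, ∑ j ∈ Finset.range (n + 1), a i ^ j ≤ Real.exp (∑ i, 2 * a i) := by
    rw [Real.exp_sum]
    exact Finset.prod_le_prod (fun i _ => Finset.sum_nonneg fun j _ => pow_nonneg (ha i) j)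
      (fun i _ => Vale.Agent.P034.geom_le_exp (ha i) (by linarith [hle i]) _)
  rw [← Finset.mul_sum] at h3
  have hn : 0 ≤ ∑ i, a i := Finset.sum_nonneg fun i _ => ha i
  have h4 := Vale.Agent.P034.exp_sub_one_le (y := 2 * ∑ i, a i) (by linarith) (by linarith)
  linarith

lemma sum_aW_le (T : ℕ) (m : ℤ) : ∑ i : ↥(rounds T), aW m i ≤ 75 * (64 : ℝ) ^ m / big := by
  unfold aW
  rw [Finset.sum_coe_sort (rounds T) (fun i => 25 * (64 : ℝ) ^ m * (1 / 2 : ℝ) ^ i.natAbs / big),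
    ← Finset.sum_div, ← Finset.mul_sum]
  refine div_le_div_of_nonneg_right ?_ big_pos.le
  have h := mul_le_mul_of_nonneg_left (Vale.Agent.P034.sum_half_natAbs_le (rounds T))
    (by positivity : (0 : ℝ) ≤ 25 * (64 : ℝ) ^ m)
  linarith

lemma sum_zW_le (T : ℕ) : ∑ i : ↥(rounds T), 2 * zW i ≤ 19584 / (ep ^ 4 * big) := by
  unfold zW
  rw [Finset.sum_coe_sort (rounds T)
    (fun i => 2 * (576 * (8 / 9 : ℝ) ^ i.natAbs / (ep ^ 4 * big))), ← Finset.mul_sum,
    ← Finset.sum_div, ← Finset.mul_sum, ← mul_div_assoc]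
  refine div_le_div_of_nonneg_right ?_ (mul_nonneg (by have := ep_pos; positivity) big_pos.le)
  have h := sum_natAbs_le (a := (8 / 9 : ℝ)) (by norm_num) (by norm_num) (rounds T)
  norm_num at h ⊢
  linarith

lemma count_stages_le (s : Finset ℤ) (N : ℕ) :
    ((s.filter (fun m => 0 ≤ m ∧ (2 : ℝ) ^ m < (N : ℝ) / ep ^ 2)).card : ℝ) ≤
      2 ^ 22 * N := by
  have h : (s.filter (fun m => 0 ≤ m ∧ (2 : ℝ) ^ m < (N : ℝ) / ep ^ 2)).card ≤
      (Finset.range (2 ^ 22 * N)).card := by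
    refine Finset.card_le_card_of_injOn Int.toNat ?_ ?_
    · intro m hm
      rw [Finset.mem_coe, Finset.mem_filter] at hm
      obtain ⟨-, h0, h1⟩ := hm
      rw [Finset.mem_coe, Finset.mem_range]
      obtain ⟨j, rfl⟩ := Int.eq_ofNat_of_zero_le h0
      rw [zpow_natCast] at h1
      rw [Int.toNat_natCast]
      have h2 : ((2 ^ j : ℕ) : ℝ) < ((2 ^ 22 * N : ℕ) : ℝ) := by
        push_cast
        unfold ep at h1
        norm_num at h1 ⊢
        linarith
      exact lt_trans Nat.lt_two_pow_self (Nat.cast_lt.mp h2)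
    · intro a ha b hb hab
      rw [Finset.mem_coe, Finset.mem_filter] at ha hb
      omega
  rw [Finset.card_range] at h
  exact_mod_cast h

lemma sum_stB_le (T n : ℕ) (s : Finset ℤ) :
    ∑ m ∈ s, ∑ t ∈ (Fintype.piFinset fun _ : ↥(rounds T) => Finset.range (n + 1)).erase 0,
      stB m t ≤ 1 / 100 := by
  set P := (Fintype.piFinset fun _ : ↥(rounds T) => Finset.range (n + 1)).erase 0 with hP
  have hb := big_pos
  rw [← Finset.sum_filter_add_sum_filter_not s (fun m => m < 0)]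
  have hA : ∑ m ∈ s.filter (fun m => m < 0), ∑ t ∈ P, stB m t ≤ 600 / big := by
    have h1 : ∀ m ∈ s.filter (fun m => m < 0),
        ∑ t ∈ P, stB m t ≤ 300 / big * (8 : ℝ) ^ m := by
      intro m hm
      have hneg := (Finset.mem_filter.mp hm).2
      have he : ∀ t ∈ P, stB m t = ∏ i : ↥(rounds T), aW m i ^ t i := fun t _ => if_pos hneg
      rw [Finset.sum_congr rfl he]
      have hb' := sum_aW_le T m
      have h64 : (64 : ℝ) ^ m ≤ 1 := zpow_le_one_of_nonpos₀ (by norm_num) hneg.le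
      have hle : (64 : ℝ) ^ m ≤ (8 : ℝ) ^ m := by
        obtain ⟨k, rfl⟩ : ∃ k : ℕ, m = -(k : ℤ) := ⟨m.natAbs, by omega⟩
        rw [zpow_neg, zpow_neg, zpow_natCast, zpow_natCast]
        exact inv_anti₀ (by positivity) (pow_le_pow_left₀ (by norm_num) (by norm_num) k)
      have hsmall : 75 * (64 : ℝ) ^ m / big ≤ 1 / 4 := by
        rw [div_le_iff₀ hb]; unfold big; linarith
      refine (sum_profiles_le _ (fun i : ↥(rounds T) => aW_nonneg m i) (hb'.trans hsmall) n).trans ?_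
      calc 4 * ∑ i : ↥(rounds T), aW m i ≤ 4 * (75 * (64 : ℝ) ^ m / big) :=
            mul_le_mul_of_nonneg_left hb' (by norm_num)
        _ = 300 / big * (64 : ℝ) ^ m := by ring
        _ ≤ 300 / big * (8 : ℝ) ^ m := mul_le_mul_of_nonneg_left hle (by positivity)
    refine (Finset.sum_le_sum h1).trans ?_
    rw [← Finset.mul_sum]
    calc 300 / big * ∑ m ∈ s.filter (fun m => m < 0), (8 : ℝ) ^ m ≤ 300 / big * 2 :=
          mul_le_mul_of_nonneg_left
            (Vale.Agent.P034.zpow_neg_sum_le _ fun m hm => (Finset.mem_filter.mp hm).2)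
            (div_nonneg (by norm_num) hb.le)
      _ = 600 / big := by ring
  have hB : ∑ m ∈ s.filter (fun m => ¬ m < 0), ∑ t ∈ P, stB m t ≤
      2 ^ 22 * (4 * (19584 / (ep ^ 4 * big))) := by
    rw [Finset.sum_comm]
    have h1 : ∀ t ∈ P, ∑ m ∈ s.filter (fun m => ¬ m < 0), stB m t ≤
        2 ^ 22 * ∏ i : ↥(rounds T), (2 * zW i) ^ t i := by
      intro t _
      set N := ∑ i : ↥(rounds T), t i with hN
      have he : ∀ m ∈ s.filter (fun m => ¬ m < 0), stB m t =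
          if (2 : ℝ) ^ m < (N : ℝ) / ep ^ 2 then ∏ i : ↥(rounds T), zW i ^ t i else 0 := by
        intro m hm
        have := (Finset.mem_filter.mp hm).2
        unfold stB
        rw [if_neg this, hN, Nat.cast_sum]
      rw [Finset.sum_congr rfl he, ← Finset.sum_filter, Finset.sum_const, nsmul_eq_mul,
        Finset.filter_filter]
      have hz : 0 ≤ ∏ i : ↥(rounds T), zW i ^ t i :=
        Finset.prod_nonneg fun i _ => pow_nonneg (zW_nonneg _) _
      have h2 : ((s.filter (fun m => ¬ m < 0 ∧ (2 : ℝ) ^ m < (N : ℝ) / ep ^ 2)).card : ℝ) ≤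
          2 ^ 22 * (2 : ℝ) ^ N := by
        have h3 : (N : ℝ) ≤ (2 : ℝ) ^ N := by exact_mod_cast (Nat.lt_two_pow_self (n := N)).le
        refine le_trans ?_ (mul_le_mul_of_nonneg_left h3 (by norm_num : (0 : ℝ) ≤ 2 ^ 22))
        simp only [not_lt]
        exact count_stages_le s N
      refine (mul_le_mul_of_nonneg_right h2 hz).trans (le_of_eq ?_)
      simp only [mul_pow, Finset.prod_mul_distrib, Finset.prod_pow_eq_pow_sum, hN]
      ring
    refine (Finset.sum_le_sum h1).trans ?_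
    rw [← Finset.mul_sum]
    have hb' := sum_zW_le T
    have hsmall : 19584 / (ep ^ 4 * big) ≤ 1 / 4 := by unfold ep big; norm_num
    refine mul_le_mul_of_nonneg_left ?_ (by norm_num)
    exact (sum_profiles_le _ (fun i : ↥(rounds T) => mul_nonneg (by norm_num) (zW_nonneg _))
      (hb'.trans hsmall) n).trans (mul_le_mul_of_nonneg_left hb' (by norm_num))
  refine (add_le_add hA hB).trans ?_
  unfold ep big
  norm_num

end Vale.Agent.P064.Sym
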